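import Vale.Agent.P097F.D.Defs

/-!
# P097F.D: the normalised action and the square root (row 6501)
-/

set_option linter.all false

noncomputable section

namespace Vale.Agent.P097F.D

open Set Metric Filter Topology Complex Vale.Agent.P097D

theorem Sg.dS (z : ℂ) : HasDerivAt SS (z * sin z) z := by
  have := (Complex.hasDerivAt_sin z).sub ((hasDerivAt_id z).mul (Complex.hasDerivAt_cos z))
  exact this.congr_deriv (by simp)

theorem Sg.cube {z : ℂ} (h : ‖z‖ ≤ 1) : ‖SS z - z ^ 3 / 3‖ ≤ ‖z‖ ^ 4 := by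
  have h1 := sin_bound h
  have h2 := mul_le_mul_of_nonneg_left (cos_bound h) (norm_nonneg z)
  rw [← norm_mul] at h2
  have e : SS z - z ^ 3 / 3 = (sin z - (z - z ^ 3 / 6)) - z * (cos z - (1 - z ^ 2 / 2)) := by
    rw [SS]; ring
  rw [e]
  refine (norm_sub_le _ _).trans ?_
  have k0 : 0 ≤ ‖z‖ ^ 4 := by positivity
  have k1 : ‖z‖ ^ 5 ≤ ‖z‖ ^ 4 := pow_le_pow_of_le_one (norm_nonneg z) h (by norm_num)
  have e2 : ‖z‖ * (‖z‖ ^ 4 * (5 / 96)) = ‖z‖ ^ 5 * (5 / 96) := by ring
  linarith

theorem Sg.mul (z : ℂ) : z ^ 3 * sg z = 3 * SS z := by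
  by_cases h : z = 0
  · simp [h, SS]
  · rw [sg, if_neg h]
    field_simp

theorem Sg.off {z : ℂ} (h : z ≠ 0) : AnalyticAt ℂ sg z := by
  have a : AnalyticAt ℂ SS z :=
    (show Differentiable ℂ SS from fun z => (Sg.dS z).differentiableAt).analyticAt z
  have b : AnalyticAt ℂ (fun z => 3 * SS z / z ^ 3) z :=
    (analyticAt_const.mul a).div (analyticAt_id.pow 3) (pow_ne_zero 3 h)
  refine b.congr ?_
  filter_upwards [isOpen_ne.mem_nhds h] with w hw
  rw [sg, if_neg hw]

theorem Sg.an (z : ℂ) : AnalyticAt ℂ sg z := by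
  by_cases h : z = 0
  · subst h
    refine Complex.analyticAt_of_differentiable_on_punctured_nhds_of_continuousAt ?_ ?_
    · filter_upwards [self_mem_nhdsWithin] with w hw
      exact (Sg.off hw).differentiableAt
    · have s0 : sg 0 = 1 := by simp [sg]
      rw [ContinuousAt, s0, tendsto_iff_norm_sub_tendsto_zero]
      have t : Tendsto (fun z : ℂ => 3 * ‖z‖) (𝓝 0) (𝓝 0) := by
        have c : Continuous fun z : ℂ => 3 * ‖z‖ := by fun_prop
        simpa using c.tendsto 0
      refine squeeze_zero' (Eventually.of_forall fun _ => norm_nonneg _) ?_ t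
      filter_upwards [closedBall_mem_nhds (0 : ℂ) one_pos] with w hw
      by_cases h : w = 0
      · simp [h, s0]
      · have w1 : ‖w‖ ≤ 1 := by simpa using hw
        have w0 : 0 < ‖w‖ := norm_pos_iff.2 h
        have e : sg w - 1 = 3 * (SS w - w ^ 3 / 3) / w ^ 3 := by
          rw [sg, if_neg h]
          field_simp
        rw [e, norm_div, norm_mul, norm_pow, div_le_iff₀ (by positivity)]
        have := Sg.cube w1
        have e3 : ‖(3 : ℂ)‖ = 3 := by simp
        rw [e3]
        nlinarith
  · exact Sg.off h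

theorem sgS : S_SG := by
  refine ⟨fun z _ => Sg.an z, by simp [sg], Sg.mul, fun c v hv => ?_⟩
  by_cases h : c = 0
  · subst h
    have e : (fun v : ℂ => v ^ 3 * sg (v * 0 / 2)) = fun v => v ^ 3 := by
      funext v
      simp [sg]
    rw [e]
    simp [hv]
  · have e : (fun v : ℂ => v ^ 3 * sg (v * c / 2)) = fun v => 24 / c ^ 3 * SS (v * c / 2) := by
      funext v
      have := Sg.mul (v * c / 2)
      field_simp
      linear_combination 8 * this
    have d : HasDerivAt (fun v : ℂ => 24 / c ^ 3 * SS (v * c / 2))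
        (24 / c ^ 3 * (v * c / 2 * sin (v * c / 2) * (1 * c / 2))) v :=
      ((Sg.dS (v * c / 2)).comp v (((hasDerivAt_id v).mul_const c).div_const 2)).const_mul _
    rw [e, d.deriv]
    simp [h, hv]

theorem sqS : S_SQ := by
  have sp : ∀ z, ¬ Sl 0 z → I * z ∈ slitPlane := by
    intro z h
    rw [mem_slitPlane_iff]
    simp only [Sl, zero_re, zero_im, not_and, not_le] at h
    simp only [mul_re, I_re, I_im, mul_im, zero_mul, one_mul, zero_sub, zero_add]
    by_cases k : z.re = 0
    · exact Or.inl (by linarith [h k])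
    · exact Or.inr k
  have s2 : ∀ z, z ≠ 0 → sq z ^ 2 = z := by
    intro z h
    have e : ((2 : ℕ) : ℂ) * (log (I * z) / 2 - Real.pi / 4 * I) =
        log (I * z) + -(Real.pi / 2 * I) := by
      push_cast
      ring
    rw [sq, ← exp_nat_mul, e, exp_add, exp_log (mul_ne_zero I_ne_zero h), exp_neg,
      exp_pi_div_two_mul_I]
    field_simp
  have an : ∀ z, ¬ Sl 0 z → AnalyticAt ℂ sq z := fun z h =>
    ((((analyticAt_const.mul analyticAt_id).clog (sp z h)).div_const (c := 2)).sub
      analyticAt_const).cexp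
  refine ⟨s2, an, fun z h => ?_, fun z h => ?_⟩
  · have := congrArg norm (s2 z h)
    rw [norm_pow] at this
    rw [← this, Real.sqrt_sq (norm_nonneg _)]
  · have z0 : z ≠ 0 := fun k => h (by simp [k, Sl])
    have d := (an z h).differentiableAt.hasDerivAt
    have e : (fun w => sq w ^ 2) =ᶠ[𝓝 z] fun w => w := by
      filter_upwards [isOpen_ne.mem_nhds z0] with w hw
      exact s2 w hw
    have u := ((d.pow 2).congr_of_eventuallyEq e.symm).unique (hasDerivAt_id z)
    have n : sq z ≠ 0 := exp_ne_zero _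
    refine d.congr_deriv ?_
    rw [eq_div_iff (mul_ne_zero two_ne_zero n)]
    simp only [Nat.cast_ofNat, Nat.add_one_sub_one, pow_one] at u
    linear_combination u

end Vale.Agent.P097F.D
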