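import Vale.Agent.P097D.Defs

/-!
# P097F.D: the maximal vertical continuation of the model leaf, its finite list of obstacles
and the dependence on the complex step `W` (definitions and statements)

Points are `p = (W, x)`. The state is `(Y, v)`, `v = W * dY/dx`, half angle `v * g Y / 2`.
-/

set_option linter.all false

noncomputable section

namespace Vale.Agent.P097F.D

open Set Metric Filter Topology Complex Vale.Agent.P097D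

/-- the normalised action `3 S z / z ^ 3` -/
def sg (z : ℂ) : ℂ := if z = 0 then 1 else 3 * SS z / z ^ 3

/-- the first integral in the state coordinates -/
def Law (g : ℂ → ℂ) (W y v : ℂ) : Prop := v ^ 3 * sg (v * g y / 2) = W ^ 3

/-- derivative in the second variable -/
def dx (f : ℂ × ℂ → ℂ) (p : ℂ × ℂ) : ℂ := deriv (fun x => f (p.1, x)) p.2

/-- the velocity -/
def vv (f : ℂ × ℂ → ℂ) (p : ℂ × ℂ) : ℂ := p.1 * dx f p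

/-- the half angle -/
def de (g : ℂ → ℂ) (f : ℂ × ℂ → ℂ) (p : ℂ × ℂ) : ℂ := vv f p * g (f p) / 2

/-- a family of model leaves, holomorphic in `(W, x)` -/
structure Fam (g : ℂ → ℂ) (f : ℂ × ℂ → ℂ) (O : Set (ℂ × ℂ)) : Prop where
  an : AnalyticOnNhd ℂ f O
  lo : ∀ p ∈ O, (f p).im < 0
  law : ∀ p ∈ O, Law g p.1 (f p) (vv f p)

/-- an open rectangle -/
def Rc (a b s t : ℝ) : Set ℂ := {z | a < z.re ∧ z.re < b ∧ s < z.im ∧ z.im < t}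

/-- a closed rectangle -/
def Rk (a b s t : ℝ) : Set ℂ := {z | a ≤ z.re ∧ z.re ≤ b ∧ s ≤ z.im ∧ z.im ≤ t}

/-- the data: curve `g`, deep family `A` on `U × Rc α β b₀ b₁` -/
structure Dat where
  g : ℂ → ℂ
  A : ℂ × ℂ → ℂ
  U : Set ℂ
  α : ℝ
  β : ℝ
  b₀ : ℝ
  b₁ : ℝ

/-- the deep family is a family of model leaves -/
structure Dat.Ok (E : Dat) : Prop where
  op : IsOpen E.U
  ne : ∀ W ∈ E.U, W ≠ 0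
  ang : DifferentiableOn ℂ E.g (Lo 0)
  lt : E.b₀ < E.b₁
  fam : Fam E.g E.A (E.U ×ˢ Rc E.α E.β E.b₀ E.b₁)

/-- a thin column with top near `p.2`, times a small disc of steps -/
def Dat.Col (E : Dat) (p : ℂ × ℂ) (e : ℝ) : Set (ℂ × ℂ) :=
  ball p.1 e ×ˢ Rc (p.2.re - e) (p.2.re + e) E.b₀ (p.2.im + e)

/-- the maximal vertical continuation domain -/
def Dat.Om (E : Dat) : Set (ℂ × ℂ) := {p | E.b₀ < p.2.im ∧ ∃ e > 0, ball p.1 e ⊆ E.U ∧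
  E.α ≤ p.2.re - e ∧ p.2.re + e ≤ E.β ∧ ∃ f, Fam E.g f (E.Col p e) ∧
    ∀ q ∈ E.Col p e, q.2.im < E.b₁ → f q = E.A q}

/-- `Y` is the continuation of the deep family to the maximal domain -/
structure Mx (E : Dat) (Y : ℂ × ℂ → ℂ) : Prop where
  ok : E.Ok
  fam : Fam E.g Y E.Om
  eq : ∀ p ∈ E.Om, p.2.im < E.b₁ → Y p = E.A p

/-- a regular state -/
def Reg (g : ℂ → ℂ) (W y v : ℂ) : Prop :=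
  W ≠ 0 ∧ y.im < 0 ∧ Law g W y v ∧ (g y = 0 ∨ sin (v * g y / 2) ≠ 0)

/-- a singular state: `Z` point or fold -/
def Sng (g : ℂ → ℂ) (W y d : ℂ) : Prop := W ≠ 0 ∧ y.im < 0 ∧ (W * g y) ^ 3 = 24 * SS d ∧
  d ≠ 0 ∧ deriv g y ≠ 0 ∧ (g y = 0 ∨ sin d = 0)

/-- the zeros of the curve are simple -/
def SZ (g : ℂ → ℂ) : Prop := ∀ y ∈ Lo 0, g y = 0 → deriv g y ≠ 0

/-- no fold over a critical point of the curve -/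
def NE (g : ℂ → ℂ) (W : ℂ) : Prop :=
  ∀ y ∈ Lo 0, ∀ d : ℂ, d ≠ 0 → sin d = 0 → (W * g y) ^ 3 = 24 * SS d → deriv g y ≠ 0

/-- the square root with the cut going up -/
def sq (z : ℂ) : ℂ := exp (log (I * z) / 2 - Real.pi / 4 * I)

/-- `x` is on the vertical slit above `c` -/
def Sl (c x : ℂ) : Prop := x.re = c.re ∧ c.im ≤ x.im

/-- a uniformising chart `x - X W = τ ^ 2` at a singular state, on `V × ball 0 r` -/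
structure Ch (g : ℂ → ℂ) (V : Set ℂ) (r : ℝ) (Φ Δ : ℂ × ℂ → ℂ) : Prop where
  anΦ : AnalyticOnNhd ℂ Φ (V ×ˢ ball 0 r)
  anΔ : AnalyticOnNhd ℂ Δ (V ×ˢ ball 0 r)
  lo : ∀ q ∈ V ×ˢ ball (0 : ℂ) r, (Φ q).im < 0 ∧ Δ q ≠ 0 ∧ deriv g (Φ q) ≠ 0
  inv : ∀ q ∈ V ×ˢ ball (0 : ℂ) r, (q.1 * g (Φ q)) ^ 3 = 24 * SS (Δ q)
  ode : ∀ q ∈ V ×ˢ ball (0 : ℂ) r, q.1 * g (Φ q) * dx Φ q = 4 * q.2 * Δ q
  ty : (∀ W ∈ V, g (Φ (W, 0)) = 0) ∨ (∀ W ∈ V, sin (Δ (W, 0)) = 0)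

/-- one obstacle at the top point `x₀`: position `X W`, slit, chart -/
structure One (E : Dat) (Y : ℂ × ℂ → ℂ) (W₀ x₀ : ℂ) (σ ρ : ℝ) (X : ℂ → ℂ)
    (Φ Δ : ℂ × ℂ → ℂ) : Prop where
  an : AnalyticOnNhd ℂ X (ball W₀ σ)
  at₀ : X W₀ = x₀
  near : ∀ W ∈ ball W₀ σ, ‖X W - x₀‖ < ρ / 8
  om : ∀ W ∈ ball W₀ σ, ∀ x ∈ Rc (x₀.re - ρ) (x₀.re + ρ) E.b₀ (x₀.im + ρ),
    (W, x) ∈ E.Om ↔ ¬ Sl (X W) x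
  ch : Ch E.g (ball W₀ σ) (2 * √ρ) Φ Δ
  loc : ∀ W ∈ ball W₀ σ, ∀ x ∈ Rc (x₀.re - ρ) (x₀.re + ρ) (x₀.im - ρ) (x₀.im + ρ),
    ¬ Sl (X W) x → Y (W, x) = Φ (W, sq (x - X W)) ∧ de E.g Y (W, x) = Δ (W, sq (x - X W))

/-- **the finite list of obstacles** of the stretch `[a₁, a₂]` at the level `T` -/
structure Obs (E : Dat) (Y : ℂ × ℂ → ℂ) (W₀ : ℂ) (T a₁ a₂ σ ρ : ℝ) (n : ℕ)
    (X : Fin n → ℂ → ℂ) (Φ Δ : Fin n → ℂ × ℂ → ℂ) : Prop where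
  σ0 : 0 < σ
  ρ0 : 0 < ρ
  sub : ball W₀ σ ⊆ E.U
  lim : E.α ≤ a₁ - ρ ∧ a₂ + ρ ≤ E.β ∧ E.b₁ ≤ T - ρ
  top : ∀ c, (X c W₀).im = T ∧ a₁ ≤ (X c W₀).re ∧ (X c W₀).re ≤ a₂
  sep : ∀ c c', c < c' → (X c W₀).re + 4 * ρ ≤ (X c' W₀).re
  one : ∀ c, One E Y W₀ (X c W₀) σ ρ (X c) (Φ c) (Δ c)
  om : ∀ W ∈ ball W₀ σ, ∀ x ∈ Rc (a₁ - ρ) (a₂ + ρ) E.b₀ (T + ρ),
    (W, x) ∈ E.Om ↔ ∀ c, ¬ Sl (X c W) x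

/-- all obstacles have the same height for real steps -/
def Lev (W₀ : ℂ) (σ : ℝ) {n : ℕ} (X : Fin n → ℂ → ℂ) : Prop :=
  ∀ c c', ∀ u : ℝ, (u : ℂ) ∈ ball W₀ σ → (X c u).im = (X c' u).im

/-- bounded states below the level `T` -/
def Cp (E : Dat) (Y : ℂ × ℂ → ℂ) (W : ℂ) (T : ℝ) : Prop := W ∈ E.U ∧ E.b₁ < T ∧ NE E.g W ∧
  (∀ x ∈ Rc E.α E.β E.b₀ T, (W, x) ∈ E.Om) ∧ ∃ τ > 0, ∃ B : ℝ, ∀ x ∈ Rc E.α E.β E.b₁ T,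
    (Y (W, x)).im ≤ -τ ∧ ‖Y (W, x)‖ ≤ B ∧ ‖de E.g Y (W, x)‖ ≤ B

/-- a leaf of step `W` up to the level `T` which continues the deep family -/
def Lv (E : Dat) (W : ℂ) (T : ℝ) (Z : ℂ → ℂ) : Prop := W ∈ E.U ∧ E.b₁ < T ∧
  DifferentiableOn ℂ Z (Rc E.α E.β E.b₀ T) ∧ (∀ x ∈ Rc E.α E.β E.b₀ T, (Z x).im < 0) ∧
  ∀ x ∈ Rc E.α E.β E.b₀ E.b₁, Z x = E.A (W, x)

/-- the leaf has bounded states -/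
def Bd (E : Dat) (W : ℂ) (T : ℝ) (Z : ℂ → ℂ) : Prop := ∃ τ > 0, ∃ B : ℝ,
  ∀ x ∈ Rc E.α E.β E.b₁ T, (Z x).im ≤ -τ ∧ ‖Z x‖ ≤ B ∧ ‖W * E.g (Z x) * deriv Z x / 2‖ ≤ B

/-! ## the rows -/

/-- the normalised action is entire -/
def S_SG : Prop := AnalyticOnNhd ℂ sg univ ∧ sg 0 = 1 ∧ (∀ z, z ^ 3 * sg z = 3 * SS z) ∧
  ∀ c v : ℂ, v ≠ 0 → (c = 0 ∨ sin (v * c / 2) ≠ 0 ↔
    deriv (fun v => v ^ 3 * sg (v * c / 2)) v ≠ 0)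

/-- primitives with a holomorphic parameter -/
def S_PRIM : Prop := ∀ (k : ℂ × ℂ → ℂ) (W₀ y₀ : ℂ) (m : ℕ), AnalyticAt ℂ k (W₀, y₀) →
  ∃ h : ℂ × ℂ → ℂ, AnalyticAt ℂ h (W₀, y₀) ∧ h (W₀, y₀) = k (W₀, y₀) / (m + 1) ∧
    ∀ᶠ q in 𝓝 (W₀, y₀),
      HasDerivAt (fun y => (y - y₀) ^ (m + 1) * h (q.1, y)) ((q.2 - y₀) ^ m * k q) q.2

/-- the maximal domain: open, downward closed, contains the base -/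
def S_OM : Prop := ∀ E : Dat, E.Ok → IsOpen E.Om ∧
  (∀ p ∈ E.Om, ∀ x : ℂ, x.re = p.2.re → E.b₀ < x.im → x.im ≤ p.2.im → (p.1, x) ∈ E.Om) ∧
  E.U ×ˢ Rc E.α E.β E.b₀ E.b₁ ⊆ E.Om ∧
  ∀ p ∈ E.Om, p.1 ∈ E.U ∧ E.α < p.2.re ∧ p.2.re < E.β ∧ E.b₀ < p.2.im

/-- gluing the columns -/
def S_GLUE : Prop := ∀ E : Dat, E.Ok → ∃ Y, Mx E Y

/-- raising a box -/
def S_UP : Prop := ∀ (E : Dat) (Y F : ℂ × ℂ → ℂ) (V : Set ℂ) (a b s h t : ℝ), Mx E Y → IsOpen V →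
  E.b₀ ≤ s → s < h → h ≤ t → V ×ˢ Rc a b s h ⊆ E.Om → Fam E.g F (V ×ˢ Rc a b s t) →
  (∀ p ∈ V ×ˢ Rc a b s h, F p = Y p) →
  V ×ˢ Rc a b E.b₀ t ⊆ E.Om ∧ ∀ p ∈ V ×ˢ Rc a b s t, F p = Y p

/-- states of a family are regular -/
def S_REG : Prop := ∀ (g : ℂ → ℂ) (f : ℂ × ℂ → ℂ) (O : Set (ℂ × ℂ)),
  DifferentiableOn ℂ g (Lo 0) → IsOpen O → Fam g f O → ∀ p ∈ O, p.1 ≠ 0 →
  vv f p ≠ 0 ∧ Reg g p.1 (f p) (vv f p) ∧ AnalyticAt ℂ (vv f) p ∧ AnalyticAt ℂ (de g f) p ∧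
    (p.1 * g (f p)) ^ 3 = 24 * SS (de g f p)

/-- flow box: a uniform radius of continuation near a regular state -/
def S_BOX : Prop := ∀ (g : ℂ → ℂ) (W₀ y₀ v₀ : ℂ), DifferentiableOn ℂ g (Lo 0) →
  Reg g W₀ y₀ v₀ → ∃ r > 0, ∃ η > 0, ∀ (f : ℂ × ℂ → ℂ) (O : Set (ℂ × ℂ)) (p : ℂ × ℂ),
    IsOpen O → Fam g f O → p ∈ O → ‖p.1 - W₀‖ < η → ‖f p - y₀‖ < η → ‖vv f p - v₀‖ < η →
    ∃ e > 0, ∃ F, Fam g F (ball p.1 e ×ˢ ball p.2 r) ∧ F =ᶠ[𝓝 p] f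

/-- continuation over a small box which carries a state near a regular state -/
def S_CONT : Prop := ∀ (E : Dat) (Y : ℂ × ℂ → ℂ) (W₀ y₀ v₀ : ℂ), Mx E Y → Reg E.g W₀ y₀ v₀ →
  ∃ r > 0, ∃ η > 0, ∀ a b s h : ℝ, b - a ≤ r → h - s ≤ r → (∀ x ∈ Rk a b s h, (W₀, x) ∈ E.Om) →
    ∀ x₁ ∈ Rc a b s h, ‖Y (W₀, x₁) - y₀‖ < η → ‖vv Y (W₀, x₁) - v₀‖ < η →
    ∀ x ∈ Rc a b E.b₀ (h + r), (W₀, x) ∈ E.Om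

/-- a leaf lies in the maximal domain -/
def S_HALF : Prop := ∀ (E : Dat) (Y : ℂ × ℂ → ℂ) (W : ℂ) (T : ℝ) (Z : ℂ → ℂ), Mx E Y →
  NE E.g W → Lv E W T Z → ∀ x ∈ Rc E.α E.β E.b₀ T, (W, x) ∈ E.Om ∧ Y (W, x) = Z x

/-- a top point is regular or the state converges to a singular state -/
def S_CLUS : Prop := ∀ (E : Dat) (Y : ℂ × ℂ → ℂ) (W x₀ : ℂ), Mx E Y → SZ E.g →
  Cp E Y W x₀.im → E.α < x₀.re → x₀.re < E.β → (W, x₀) ∉ E.Om → ∃ y d, Sng E.g W y d ∧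
    Tendsto (fun x => (Y (W, x), de E.g Y (W, x))) (𝓝[Lo x₀.im] x₀) (𝓝 (y, d))

/-- the chart at a singular state, with its coordinate function -/
def S_SCH : Prop := ∀ (g : ℂ → ℂ) (W₀ y₀ d₀ : ℂ), DifferentiableOn ℂ g (Lo 0) →
  Sng g W₀ y₀ d₀ → ∃ r > 0, ∃ (Φ Δ : ℂ × ℂ → ℂ) (tc : ℂ × ℂ × ℂ → ℂ),
    Ch g (ball W₀ r) r Φ Δ ∧ AnalyticAt ℂ tc (W₀, y₀, d₀) ∧ tc (W₀, y₀, d₀) = 0 ∧
    ∀ᶠ s in 𝓝 (W₀, y₀, d₀), (s.1 * g s.2.1) ^ 3 = 24 * SS s.2.2 →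
      Φ (s.1, tc s) = s.2.1 ∧ Δ (s.1, tc s) = s.2.2

/-- the square root -/
def S_SQ : Prop := (∀ z, z ≠ 0 → sq z ^ 2 = z) ∧ (∀ z, ¬ Sl 0 z → AnalyticAt ℂ sq z) ∧
  (∀ z, z ≠ 0 → ‖sq z‖ = √‖z‖) ∧ ∀ z, ¬ Sl 0 z → HasDerivAt sq (1 / (2 * sq z)) z

/-- a chart composed with the square root is a family, its centre is not in the domain -/
def S_CHF : Prop := ∀ (g : ℂ → ℂ) (V : Set ℂ) (r : ℝ) (Φ Δ : ℂ × ℂ → ℂ) (X : ℂ → ℂ),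
  DifferentiableOn ℂ g (Lo 0) → IsOpen V → (∀ W ∈ V, W ≠ 0) → Ch g V r Φ Δ →
  AnalyticOnNhd ℂ X V → 0 < r →
  (Fam g (fun p => Φ (p.1, sq (p.2 - X p.1)))
      {p | p.1 ∈ V ∧ ‖p.2 - X p.1‖ < r ^ 2 ∧ ¬ Sl (X p.1) p.2} ∧
    ∀ p : ℂ × ℂ, p.1 ∈ V → ‖p.2 - X p.1‖ < r ^ 2 → ¬ Sl (X p.1) p.2 →
      de g (fun p => Φ (p.1, sq (p.2 - X p.1))) p = Δ (p.1, sq (p.2 - X p.1))) ∧
  ∀ (f : ℂ × ℂ → ℂ) (O : Set (ℂ × ℂ)), IsOpen O → Fam g f O → ∀ W ∈ V, (W, X W) ∈ O →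
    ¬ ∀ᶠ x in 𝓝[Lo (X W).im] (X W), f (W, x) = Φ (W, sq (x - X W))

/-- the bottom of the square round a singular top point -/
def S_BOT : Prop := ∀ (E : Dat) (Y : ℂ × ℂ → ℂ) (W₀ x₀ y d : ℂ), Mx E Y → E.b₁ < x₀.im →
  E.α < x₀.re → x₀.re < E.β → (∀ x ∈ Rc E.α E.β E.b₀ x₀.im, (W₀, x) ∈ E.Om) →
  Sng E.g W₀ y d →
  Tendsto (fun x => (Y (W₀, x), de E.g Y (W₀, x))) (𝓝[Lo x₀.im] x₀) (𝓝 (y, d)) →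
  ∃ ρ₀ > 0, ∀ ρ, 0 < ρ → ρ ≤ ρ₀ → ∃ σ > 0, ∃ (X : ℂ → ℂ) (Φ Δ : ℂ × ℂ → ℂ),
    AnalyticOnNhd ℂ X (ball W₀ σ) ∧ X W₀ = x₀ ∧ (∀ W ∈ ball W₀ σ, ‖X W - x₀‖ < ρ / 8) ∧
    Ch E.g (ball W₀ σ) (2 * √ρ) Φ Δ ∧
    ∀ W ∈ ball W₀ σ, ∀ x ∈ Rc (x₀.re - ρ) (x₀.re + ρ) (x₀.im - ρ) (x₀.im - ρ / 2),
      (W, x) ∈ E.Om ∧ Y (W, x) = Φ (W, sq (x - X W))

/-- the continuation round a singular top point -/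
def S_SING : Prop := ∀ (E : Dat) (Y : ℂ × ℂ → ℂ) (W₀ x₀ y d : ℂ), Mx E Y → E.b₁ < x₀.im →
  E.α < x₀.re → x₀.re < E.β → (∀ x ∈ Rc E.α E.β E.b₀ x₀.im, (W₀, x) ∈ E.Om) →
  Sng E.g W₀ y d →
  Tendsto (fun x => (Y (W₀, x), de E.g Y (W₀, x))) (𝓝[Lo x₀.im] x₀) (𝓝 (y, d)) →
  ∃ ρ₀ > 0, ∀ ρ, 0 < ρ → ρ ≤ ρ₀ → ∃ σ > 0, ∃ X Φ Δ, One E Y W₀ x₀ σ ρ X Φ Δ

/-- the finite list at one step -/
def S_STR : Prop := ∀ (E : Dat) (Y : ℂ × ℂ → ℂ) (W₀ : ℂ) (T a₁ a₂ : ℝ), Mx E Y → SZ E.g →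
  Cp E Y W₀ T → E.α < a₁ → a₁ ≤ a₂ → a₂ < E.β →
  ∃ σ ρ n X Φ Δ, Obs E Y W₀ T a₁ a₂ σ ρ n X Φ Δ

/-- countably many steps have a fold over a critical point -/
def S_NEX : Prop := ∀ g : ℂ → ℂ, DifferentiableOn ℂ g (Lo 0) → {W : ℂ | ¬ NE g W}.Countable

/-- off a countable set all obstacles of the list stay level -/
def S_LEV : Prop := ∀ (E : Dat) (Y : ℂ × ℂ → ℂ) (T : ℝ → ℝ) (a₁ a₂ : ℝ), Mx E Y → SZ E.g →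
  E.α < a₁ → a₁ ≤ a₂ → a₂ < E.β → ∃ N : Set ℝ, N.Countable ∧ ∀ W : ℝ, W ∉ N →
    Cp E Y W (T W) → ∃ σ ρ n X Φ Δ, Obs E Y W (T W) a₁ a₂ σ ρ n X Φ Δ ∧ Lev W σ X

/-- **THE OUTPUT OF THE BLOCK** -/
def Spec_OBS : Prop := ∀ E : Dat, E.Ok → SZ E.g → ∃ Y, Mx E Y ∧
  ∀ (T : ℝ → ℝ) (Z : ℝ → ℂ → ℂ) (a₁ a₂ : ℝ), E.α < a₁ → a₁ ≤ a₂ → a₂ < E.β →
  ∃ N : Set ℝ, N.Countable ∧ ∀ W : ℝ, W ∉ N → Lv E W (T W) (Z W) →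
    (∀ x ∈ Rc E.α E.β E.b₀ (T W), ((W : ℂ), x) ∈ E.Om ∧ Y (W, x) = Z W x) ∧
    (Bd E W (T W) (Z W) →
      ∃ σ ρ n X Φ Δ, Obs E Y W (T W) a₁ a₂ σ ρ n X Φ Δ ∧ Lev W σ X)

end Vale.Agent.P097F.D
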