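import Vale.Agent.P097F.D.Defs

/-!
# P097F.D: the bottom of the square round a singular top point
-/

set_option linter.all false

noncomputable section

namespace Vale.Agent.P097F.D

open Set Metric Filter Topology Complex Vale.Agent.P097D

namespace BotA

lemma rc_op (a b s t : ℝ) : IsOpen (Rc a b s t) :=
  (isOpen_lt continuous_const continuous_re).inter ((isOpen_lt continuous_re continuous_const).inter
    ((isOpen_lt continuous_const continuous_im).inter (isOpen_lt continuous_im continuous_const)))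

lemma rc_cv (a b s t : ℝ) : Convex ℝ (Rc a b s t) :=
  (convex_halfSpace_re_gt a).inter ((convex_halfSpace_re_lt b).inter
    ((convex_halfSpace_im_gt s).inter (convex_halfSpace_im_lt t)))

lemma rk_cp (a b s t : ℝ) : IsCompact (Rk a b s t) := by
  have : Rk a b s t = Icc a b ×ℂ Icc s t := by
    ext z
    simp only [Rk, mem_reProdIm, mem_Icc, mem_setOf_eq]
    tauto
  rw [this]
  exact isCompact_Icc.reProdIm isCompact_Icc

lemma ch_mono {g : ℂ → ℂ} {V V' : Set ℂ} {r r' : ℝ} {Φ Δ : ℂ × ℂ → ℂ} (h : Ch g V r Φ Δ)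
    (e : V' ⊆ V) (e' : r' ≤ r) : Ch g V' r' Φ Δ :=
  have s : V' ×ˢ ball (0 : ℂ) r' ⊆ V ×ˢ ball 0 r := prod_mono e (ball_subset_ball e')
  ⟨h.anΦ.mono s, h.anΔ.mono s, fun q hq => h.lo q (s hq), fun q hq => h.inv q (s hq),
    fun q hq => h.ode q (s hq), h.ty.imp (fun t W hW => t W (e hW)) fun t W hW => t W (e hW)⟩

lemma an_neg {Φ : ℂ × ℂ → ℂ} {q : ℂ × ℂ} (h : AnalyticAt ℂ Φ (q.1, -q.2)) :
    AnalyticAt ℂ (fun q : ℂ × ℂ => Φ (q.1, -q.2)) q :=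
  AnalyticAt.comp (g := Φ) (f := fun q : ℂ × ℂ => ((q.1, -q.2) : ℂ × ℂ)) h
    (analyticAt_fst.prod analyticAt_snd.neg)

lemma dx_neg (Φ : ℂ × ℂ → ℂ) (q : ℂ × ℂ) :
    dx (fun q : ℂ × ℂ => Φ (q.1, -q.2)) q = -dx Φ (q.1, -q.2) := by
  show deriv (fun x => (fun x => Φ (q.1, x)) (-x)) q.2 = -deriv (fun x => Φ (q.1, x)) (-q.2)
  exact deriv_comp_neg (fun x => Φ (q.1, x)) q.2

lemma mem_neg' {V : Set ℂ} {r : ℝ} {q : ℂ × ℂ} (hq : q ∈ V ×ˢ ball (0 : ℂ) r) :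
    ((q.1, -q.2) : ℂ × ℂ) ∈ V ×ˢ ball (0 : ℂ) r := by
  refine ⟨hq.1, ?_⟩
  have := hq.2
  rw [mem_ball_zero_iff] at this
  show -q.2 ∈ ball (0 : ℂ) r
  rwa [mem_ball_zero_iff, norm_neg]

lemma ch_neg {g : ℂ → ℂ} {V : Set ℂ} {r : ℝ} {Φ Δ : ℂ × ℂ → ℂ} (h : Ch g V r Φ Δ) :
    Ch g V r (fun q => Φ (q.1, -q.2)) fun q => Δ (q.1, -q.2) where
  anΦ q hq := an_neg (h.anΦ (q.1, -q.2) (mem_neg' hq))
  anΔ q hq := an_neg (h.anΔ (q.1, -q.2) (mem_neg' hq))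
  lo q hq := by
    have e := h.lo (q.1, -q.2) (mem_neg' hq)
    exact e
  inv q hq := by
    have e2 : (q.1 * g (Φ (q.1, -q.2))) ^ 3 = 24 * SS (Δ (q.1, -q.2)) :=
      h.inv (q.1, -q.2) (mem_neg' hq)
    exact e2
  ode q hq := by
    have e : q.1 * g (Φ (q.1, -q.2)) * dx Φ (q.1, -q.2) = 4 * -q.2 * Δ (q.1, -q.2) :=
      h.ode (q.1, -q.2) (mem_neg' hq)
    show q.1 * g (Φ (q.1, -q.2)) * dx (fun q : ℂ × ℂ => Φ (q.1, -q.2)) q = 4 * q.2 * Δ (q.1, -q.2)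
    rw [dx_neg]
    linear_combination -e
  ty := by
    rcases h.ty with t | t
    · refine Or.inl fun W hW => ?_
      show g (Φ (W, -0)) = 0
      rw [neg_zero]
      exact t W hW
    · refine Or.inr fun W hW => ?_
      show sin (Δ (W, -0)) = 0
      rw [neg_zero]
      exact t W hW

lemma sl {f : ℂ × ℂ → ℂ} {p : ℂ × ℂ} (h : AnalyticAt ℂ f p) :
    AnalyticAt ℂ (fun x => f (p.1, x)) p.2 :=
  h.comp_of_eq (analyticAt_const.prod analyticAt_id) rfl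

/-- the square of the coordinate moves with unit speed -/
lemma key {g : ℂ → ℂ} {V : Set ℂ} {r : ℝ} {Φ Δ Y τ : ℂ × ℂ → ℂ} (h : Ch g V r Φ Δ) {p : ℂ × ℂ}
    (aτ : AnalyticAt ℂ τ p) (hm : (p.1, τ p) ∈ V ×ˢ ball (0 : ℂ) r)
    (e : ∀ᶠ q in 𝓝 p, Φ (q.1, τ q) = Y q) (e' : Δ (p.1, τ p) = de g Y p) :
    HasDerivAt (fun x => τ (p.1, x) ^ 2 - x) 0 p.2 := by
  have d1 := (sl aτ).differentiableAt.hasDerivAt
  have d2 : HasDerivAt (fun t => Φ (p.1, t)) (dx Φ (p.1, τ p)) (τ (p.1, p.2)) :=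
    (sl (h.anΦ _ hm)).differentiableAt.hasDerivAt
  have d3 := d2.comp p.2 d1
  have e1 : (fun x => Y (p.1, x)) =ᶠ[𝓝 p.2] (fun t => Φ (p.1, t)) ∘ fun x => τ (p.1, x) := by
    have t : Tendsto (fun x : ℂ => (p.1, x)) (𝓝 p.2) (𝓝 p) :=
      (continuous_const.prodMk continuous_id).tendsto p.2
    exact (t.eventually e).mono fun x hx => hx.symm
  have d4 : dx Y p = dx Φ (p.1, τ p) * deriv (fun x => τ (p.1, x)) p.2 :=
    (d3.congr_of_eventuallyEq e1).deriv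
  have o := h.ode _ hm
  have n := (h.lo _ hm).2.1
  have y0 : Φ (p.1, τ p) = Y p := e.self_of_nhds
  simp only [y0] at o
  have k : 2 * τ p * deriv (fun x => τ (p.1, x)) p.2 = 1 := by
    apply mul_left_cancel₀ n
    have e2 : Δ (p.1, τ p) = p.1 * (dx Φ (p.1, τ p) * deriv (fun x => τ (p.1, x)) p.2) *
        g (Y p) / 2 := by rw [e', de, vv, d4]
    linear_combination -e2 - deriv (fun x => τ (p.1, x)) p.2 / 2 * o
  refine ((d1.pow 2).sub (hasDerivAt_id p.2)).congr_deriv ?_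
  simp only [Nat.cast_ofNat, Nat.add_one_sub_one, pow_one]
  linear_combination k

lemma cst {f : ℂ → ℂ} {S : Set ℂ} (o : IsOpen S) (c : Convex ℝ S)
    (h : ∀ x ∈ S, HasDerivAt f 0 x) {x y : ℂ} (hx : x ∈ S) (hy : y ∈ S) : f x = f y :=
  o.is_const_of_deriv_eq_zero c.isPreconnected
    (fun z hz => (h z hz).differentiableAt.differentiableWithinAt) (fun z hz => (h z hz).deriv) hx hy

end BotA

open BotA in
theorem bot (hO : S_OM) (hQ : S_SQ) (hR : S_REG) (hS : S_SCH) : S_BOT := by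
  intro E Y W₀ x₀ y d mx hb ha hβ hom sng lim
  obtain ⟨r, r0, Φ, Δ, tc, ch, atc, tc0, ev⟩ := hS E.g W₀ y d mx.ok.ang sng
  obtain ⟨oO, -, -, hU⟩ := hO E mx.ok
  have rg := fun p (hp : p ∈ E.Om) => hR E.g Y E.Om mx.ok.ang oO mx.fam p hp
    (mx.ok.ne _ (hU p hp).1)
  obtain ⟨N, hN, oN, mN⟩ : ∃ N : Set (ℂ × ℂ × ℂ), (∀ s ∈ N, AnalyticAt ℂ tc s ∧
      (s.1, tc s) ∈ ball W₀ r ×ˢ ball (0 : ℂ) r ∧ ((s.1 * E.g s.2.1) ^ 3 = 24 * SS s.2.2 →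
        Φ (s.1, tc s) = s.2.1 ∧ Δ (s.1, tc s) = s.2.2)) ∧ IsOpen N ∧ (W₀, y, d) ∈ N := by
    have c : ContinuousAt (fun s : ℂ × ℂ × ℂ => (s.1, tc s)) (W₀, y, d) :=
      continuousAt_fst.prodMk atc.continuousAt
    exact eventually_nhds_iff.1 (atc.eventually_analyticAt.and ((c.eventually
      ((isOpen_ball.prod isOpen_ball).mem_nhds ⟨mem_ball_self r0, by
        show tc (W₀, y, d) ∈ ball (0 : ℂ) r
        rw [tc0]; exact mem_ball_self r0⟩)).and ev))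
  let st : ℂ × ℂ → ℂ × ℂ × ℂ := fun p => (p.1, Y p, de E.g Y p)
  have ast : ∀ p ∈ E.Om, AnalyticAt ℂ st p := fun p hp =>
    analyticAt_fst.prod ((mx.fam.an p hp).prod (rg p hp).2.2.2.1)
  let G : Set (ℂ × ℂ) := E.Om ∩ st ⁻¹' N
  have oG : IsOpen G := ContinuousOn.isOpen_inter_preimage
    (fun p hp => (ast p hp).continuousAt.continuousWithinAt) oO oN
  let τ : ℂ × ℂ → ℂ := fun p => tc (st p)
  have aτ : ∀ p ∈ G, AnalyticAt ℂ τ p := fun p hp => (hN _ hp.2).1.comp (ast p hp.1)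
  have eG : ∀ p ∈ G, Φ (p.1, τ p) = Y p ∧ Δ (p.1, τ p) = de E.g Y p := fun p hp =>
    (hN _ hp.2).2.2 (rg p hp.1).2.2.2.2
  have kG : ∀ p ∈ G, HasDerivAt (fun x => τ (p.1, x) ^ 2 - x) 0 p.2 := fun p hp =>
    key ch (aτ p hp) (hN _ hp.2).2.1
      (by filter_upwards [oG.mem_nhds hp] with q hq using (eG q hq).1) (eG p hp).2
  have lim' : Tendsto (fun x => st (W₀, x)) (𝓝[Lo x₀.im] x₀) (𝓝 (W₀, y, d)) :=
    tendsto_const_nhds.prodMk_nhds lim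
  have b0 : E.b₀ < x₀.im := mx.ok.lt.trans hb
  obtain ⟨δ, δ0, hδ⟩ : ∃ δ > 0, ∀ x ∈ ball x₀ δ ∩ Lo x₀.im, (W₀, x) ∈ G := by
    have e1 : ∀ᶠ x in 𝓝 x₀, x ∈ Rc E.α E.β E.b₀ (x₀.im + 1) :=
      (rc_op _ _ _ _).mem_nhds ⟨ha, hβ, b0, by linarith⟩
    have e2 := (lim'.eventually (oN.mem_nhds mN)).and (e1.filter_mono nhdsWithin_le_nhds)
    obtain ⟨δ, δ0, h⟩ := Metric.mem_nhdsWithin_iff.1 e2
    exact ⟨δ, δ0, fun x hx => ⟨hom x ⟨(h hx).2.1, (h hx).2.2.1, (h hx).2.2.2.1, hx.2⟩, (h hx).1⟩⟩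
  have t0 : ∀ x ∈ ball x₀ δ ∩ Lo x₀.im, τ (W₀, x) ^ 2 - x = -x₀ := fun x hx => by
    haveI : (𝓝[Lo x₀.im] x₀).NeBot := mem_closure_iff_nhdsWithin_neBot.1 (by
      show x₀ ∈ closure {z : ℂ | z.im < x₀.im}
      rw [closure_setOf_im_lt]
      exact le_refl x₀.im)
    have l1 : Tendsto (fun x => τ (W₀, x) ^ 2 - x) (𝓝[Lo x₀.im] x₀) (𝓝 (tc (W₀, y, d) ^ 2 - x₀)) :=
      ((atc.continuousAt.tendsto.comp lim').pow 2).sub (tendsto_id.mono_left nhdsWithin_le_nhds)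
    rw [tc0, zero_pow two_ne_zero, zero_sub] at l1
    refine tendsto_nhds_unique (tendsto_const_nhds.congr' ?_) l1
    filter_upwards [inter_mem (mem_nhdsWithin_of_mem_nhds (ball_mem_nhds x₀ δ0))
      self_mem_nhdsWithin] with z hz
    exact cst (f := fun x => τ (W₀, x) ^ 2 - x) (isOpen_ball.inter
      (isOpen_lt continuous_im continuous_const)) ((convex_ball _ _).inter
        (convex_halfSpace_im_lt _)) (fun w hw => kG (W₀, w) (hδ w hw)) hx hz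
  refine ⟨min (δ / 3) (r ^ 2 / 4), lt_min (by positivity) (by positivity), fun ρ ρ0 hρ => ?_⟩
  have ρ1 : ρ ≤ δ / 3 := hρ.trans (min_le_left _ _)
  have ρ2 : 2 * √ρ ≤ r := by
    have : √ρ ≤ r / 2 := Real.sqrt_le_iff.2 ⟨by positivity, by
      linarith [hρ.trans (min_le_right _ _)]⟩
    linarith
  have kH : Rk (x₀.re - ρ) (x₀.re + ρ) (x₀.im - ρ) (x₀.im - ρ / 2) ⊆ ball x₀ δ ∩ Lo x₀.im :=
    fun x hx => ⟨by
      rw [mem_ball, dist_eq_norm]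
      have := norm_le_abs_re_add_abs_im (x - x₀)
      have h1 : |(x - x₀).re| ≤ ρ := by rw [sub_re, abs_le]; constructor <;> linarith [hx.1, hx.2.1]
      have h2 : |(x - x₀).im| ≤ ρ := by
        rw [sub_im, abs_le]; constructor <;> linarith [hx.2.2.1, hx.2.2.2]
      linarith, by
      show x.im < x₀.im
      linarith [hx.2.2.2]⟩
  have cK : Rc (x₀.re - ρ) (x₀.re + ρ) (x₀.im - ρ) (x₀.im - ρ / 2) ⊆
      Rk (x₀.re - ρ) (x₀.re + ρ) (x₀.im - ρ) (x₀.im - ρ / 2) := fun x hx =>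
    ⟨hx.1.le, hx.2.1.le, hx.2.2.1.le, hx.2.2.2.le⟩
  have tube : ∀ᶠ W in 𝓝 W₀, ∀ x ∈ Rk (x₀.re - ρ) (x₀.re + ρ) (x₀.im - ρ) (x₀.im - ρ / 2),
      (W, x) ∈ G := (rk_cp _ _ _ _).eventually_forall_of_forall_eventually fun x hx =>
    oG.mem_nhds (hδ x (kH hx))
  let x₁ : ℂ := ⟨x₀.re, x₀.im - 3 * ρ / 4⟩
  have m1 : x₁ ∈ Rc (x₀.re - ρ) (x₀.re + ρ) (x₀.im - ρ) (x₀.im - ρ / 2) :=
    ⟨by show x₀.re - ρ < x₀.re; linarith, by show x₀.re < x₀.re + ρ; linarith,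
      by show x₀.im - ρ < x₀.im - 3 * ρ / 4; linarith,
      by show x₀.im - 3 * ρ / 4 < x₀.im - ρ / 2; linarith⟩
  let X : ℂ → ℂ := fun W => x₁ - τ (W, x₁) ^ 2
  have aX : ∀ W, (W, x₁) ∈ G → AnalyticAt ℂ X W := fun W h =>
    analyticAt_const.sub (((aτ _ h).comp_of_eq (analyticAt_id.prod analyticAt_const) rfl).pow 2)
  have X0 : X W₀ = x₀ := by
    have := t0 x₁ (kH (cK m1))
    show x₁ - τ (W₀, x₁) ^ 2 = x₀
    linear_combination -this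
  have nr : ∀ᶠ W in 𝓝 W₀, ‖X W - x₀‖ < ρ / 8 := by
    have := (aX W₀ (hδ _ (kH (cK m1)))).continuousAt.tendsto
    rw [X0] at this
    filter_upwards [this.eventually (ball_mem_nhds x₀ (show 0 < ρ / 8 by positivity))] with W h
    rwa [dist_eq_norm] at h
  obtain ⟨σ, σ0, hσ⟩ := Metric.eventually_nhds_iff_ball.1 (tube.and (nr.and (ball_mem_nhds W₀ r0)))
  have sG : ∀ p ∈ ball W₀ σ ×ˢ Rc (x₀.re - ρ) (x₀.re + ρ) (x₀.im - ρ) (x₀.im - ρ / 2), p ∈ G :=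
    fun p hp => (hσ p.1 hp.1).1 p.2 (cK hp.2)
  have s2 : ∀ p ∈ ball W₀ σ ×ˢ Rc (x₀.re - ρ) (x₀.re + ρ) (x₀.im - ρ) (x₀.im - ρ / 2),
      τ p ^ 2 = p.2 - X p.1 := fun p hp => by
    have := cst (f := fun x => τ (p.1, x) ^ 2 - x) (rc_op _ _ _ _) (rc_cv _ _ _ _)
      (fun w hw => kG (p.1, w) (sG _ ⟨hp.1, hw⟩)) hp.2 m1
    show τ p ^ 2 = p.2 - (x₁ - τ (p.1, x₁) ^ 2)
    linear_combination this
  have neg : ∀ p ∈ ball W₀ σ ×ˢ Rc (x₀.re - ρ) (x₀.re + ρ) (x₀.im - ρ) (x₀.im - ρ / 2),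
      (p.2 - X p.1).im < 0 := fun p hp => by
    have h1 := (abs_le.1 ((abs_im_le_norm _).trans (hσ p.1 hp.1).2.1.le)).1
    rw [sub_im] at h1 ⊢
    linarith [hp.2.2.2.2]
  have ne0 : ∀ p ∈ ball W₀ σ ×ˢ Rc (x₀.re - ρ) (x₀.re + ρ) (x₀.im - ρ) (x₀.im - ρ / 2),
      p.2 - X p.1 ≠ 0 := fun p hp e => by simpa [e] using neg p hp
  have sgn := ((convex_ball W₀ σ).prod (rc_cv (x₀.re - ρ) (x₀.re + ρ) (x₀.im - ρ)
    (x₀.im - ρ / 2))).isPreconnected.eq_or_eq_neg_of_sq_eq (f := τ)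
      (g := fun p => sq (p.2 - X p.1))
      (fun p hp => (aτ p (sG p hp)).continuousAt.continuousWithinAt)
      (fun p hp => (((hQ.2.1 _ fun h => absurd h.2 (not_le.2 (neg p hp))).comp_of_eq
        (analyticAt_snd.sub ((aX p.1 (sG (p.1, x₁) ⟨hp.1, m1⟩)).comp_of_eq analyticAt_fst rfl))
          rfl).continuousAt).continuousWithinAt)
      (fun p hp => (s2 p hp).trans (hQ.1 _ (ne0 p hp)).symm)
      fun {p} hp e => ne0 p hp (by rw [← hQ.1 _ (ne0 p hp), e, zero_pow two_ne_zero])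
  have ch' := ch_mono ch (V' := ball W₀ σ) (fun W hW => (hσ W hW).2.2) ρ2
  have aX' : AnalyticOnNhd ℂ X (ball W₀ σ) := fun W hW => aX W (sG (W, x₁) ⟨hW, m1⟩)
  rcases sgn with e | e
  · exact ⟨σ, σ0, X, Φ, Δ, aX', X0, fun W hW => (hσ W hW).2.1, ch', fun W hW x hx =>
      ⟨(sG (W, x) ⟨hW, hx⟩).1, by
        rw [← (eG _ (sG (W, x) ⟨hW, hx⟩)).1, e (show (W, x) ∈ _ from ⟨hW, hx⟩)]⟩⟩
  · exact ⟨σ, σ0, X, _, _, aX', X0, fun W hW => (hσ W hW).2.1, ch_neg ch', fun W hW x hx =>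
      ⟨(sG (W, x) ⟨hW, hx⟩).1, by
        rw [← (eG _ (sG (W, x) ⟨hW, hx⟩)).1, e (show (W, x) ∈ _ from ⟨hW, hx⟩)]
        rfl⟩⟩

end Vale.Agent.P097F.D
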