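import Vale.Agent.P097F.D.Defs
import Vale.Agent.P097EE.Ift

/-! # P097F.D: the flow box at a regular state -/

set_option linter.all false

noncomputable section

namespace Vale.Agent.P097F.D

open Set Metric Filter Topology Complex Vale.Agent.P097D Vale.Agent.P097EE

theorem bx_ang {g : ℂ → ℂ} (hg : DifferentiableOn ℂ g (Lo 0)) {y : ℂ} (hy : y.im < 0) :
    AnalyticAt ℂ g y :=
  hg.analyticAt ((isOpen_lt Complex.continuous_im continuous_const).mem_nhds hy)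

theorem bx_nu (hs : S_SG) {g : ℂ → ℂ} {W₀ y₀ v₀ : ℂ} (hg : DifferentiableOn ℂ g (Lo 0))
    (R : Reg g W₀ y₀ v₀) : v₀ ≠ 0 ∧ ∃ ν : ℂ × ℂ → ℂ, AnalyticAt ℂ ν (W₀, y₀) ∧ ν (W₀, y₀) = v₀ ∧
      ∀ᶠ s in 𝓝 ((W₀, y₀), v₀), Law g s.1.1 s.1.2 s.2 ↔ ν s.1 = s.2 := by
  obtain ⟨hW, hy, hL, hr⟩ := R
  have v0 : v₀ ≠ 0 := by
    rintro rfl
    have : W₀ ^ 3 = 0 := by rw [← hL]; simp
    exact hW (pow_eq_zero_iff (by norm_num) |>.1 this)
  refine ⟨v0, ?_⟩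
  let H : (ℂ × ℂ) × ℂ → ℂ := fun s => s.2 ^ 3 * sg (s.2 * g s.1.2 / 2) - s.1.1 ^ 3
  have a1 : AnalyticAt ℂ (fun s : (ℂ × ℂ) × ℂ => g s.1.2) ((W₀, y₀), v₀) :=
    AnalyticAt.comp (g := g) (bx_ang hg hy) (analyticAt_snd.comp analyticAt_fst)
  have aH : AnalyticAt ℂ H ((W₀, y₀), v₀) :=
    ((analyticAt_snd.pow 3).mul (AnalyticAt.comp (g := sg) (hs.1 _ (mem_univ _))
      ((analyticAt_snd.mul a1).div_const (c := 2)))).sub
      ((analyticAt_fst.comp analyticAt_fst).pow 3)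
  have d : fderiv ℂ H ((W₀, y₀), v₀) (0, 1) ≠ 0 := by
    rw [← (hasDerivAt_snd aH.differentiableAt).deriv]
    have := (hs.2.2.2 (g y₀) v₀ v0).1 hr
    simpa only [H, deriv_sub_const] using this
  obtain ⟨ν, h1, h2, h3⟩ := impP aH d
  refine ⟨ν, h1, h2, h3.mono fun s h => Iff.trans ?_ h⟩
  have : H ((W₀, y₀), v₀) = 0 := sub_eq_zero.2 hL
  rw [this]
  exact sub_eq_zero.symm

/-- the time function and its inverse -/
theorem bx_th (hp : S_PRIM) {k : ℂ × ℂ → ℂ} {W₀ y₀ : ℂ} (hk : AnalyticAt ℂ k (W₀, y₀))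
    (k0 : k (W₀, y₀) ≠ 0) : ∃ ξ Θ : ℂ × ℂ → ℂ, AnalyticAt ℂ ξ (W₀, y₀) ∧ ξ (W₀, y₀) = 0 ∧
      AnalyticAt ℂ Θ (W₀, 0) ∧ Θ (W₀, 0) = y₀ ∧
      (∀ᶠ q in 𝓝 (W₀, y₀), HasDerivAt (fun y => ξ (q.1, y)) (k q) q.2 ∧ Θ (q.1, ξ q) = q.2) ∧
      ∀ᶠ q in 𝓝 (W₀, (0 : ℂ)), k (q.1, Θ q) * dx Θ q = 1 := by
  obtain ⟨h, ah, -, dh⟩ := hp k W₀ y₀ 0 hk
  let ξ : ℂ × ℂ → ℂ := fun q => (q.2 - y₀) ^ (0 + 1) * h q
  have aξ : AnalyticAt ℂ ξ (W₀, y₀) := ((analyticAt_snd.sub analyticAt_const).pow _).mul ah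
  have ξ0 : ξ (W₀, y₀) = 0 := by simp [ξ]
  have dξ : ∀ᶠ q in 𝓝 (W₀, y₀), HasDerivAt (fun y => ξ (q.1, y)) (k q) q.2 :=
    dh.mono fun q hq => by simpa only [pow_zero, one_mul] using hq
  let G : (ℂ × ℂ) × ℂ → ℂ := fun s => ξ (s.1.1, s.2) - s.1.2
  have aG : AnalyticAt ℂ G ((W₀, 0), y₀) :=
    (AnalyticAt.comp (g := ξ) (f := fun s : (ℂ × ℂ) × ℂ => (s.1.1, s.2)) aξ
      ((analyticAt_fst.comp analyticAt_fst).prod analyticAt_snd)).sub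
      (analyticAt_snd.comp analyticAt_fst)
  have d : fderiv ℂ G ((W₀, 0), y₀) (0, 1) ≠ 0 := by
    rw [← (hasDerivAt_snd aG.differentiableAt).deriv]
    have := (dξ.self_of_nhds.sub_const 0).deriv
    simp only [G]
    rw [this]
    exact k0
  obtain ⟨Θ, h1, h2, h3⟩ := impP aG d
  have G0 : G ((W₀, 0), y₀) = 0 := by simp [G, ξ0]
  rw [G0] at h3
  have t1 : Tendsto (fun q : ℂ × ℂ => ((q.1, ξ q), q.2)) (𝓝 (W₀, y₀)) (𝓝 ((W₀, 0), y₀)) := by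
    have := (continuousAt_fst.prodMk aξ.continuousAt).prodMk
      (continuousAt_snd (p := (W₀, y₀)))
    simpa only [ContinuousAt, ξ0] using this
  have t2 : Tendsto (fun q : ℂ × ℂ => (q, Θ q)) (𝓝 (W₀, 0)) (𝓝 ((W₀, 0), y₀)) := by
    have := continuousAt_id.prodMk h1.continuousAt
    simpa only [ContinuousAt, h2, id] using this
  have t3 : Tendsto (fun q : ℂ × ℂ => (q.1, Θ q)) (𝓝 (W₀, 0)) (𝓝 (W₀, y₀)) := by
    have := (continuousAt_fst (p := (W₀, (0 : ℂ)))).prodMk h1.continuousAt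
    simpa only [ContinuousAt, h2] using this
  have e1 : ∀ᶠ q in 𝓝 (W₀, (0 : ℂ)), ξ (q.1, Θ q) = q.2 :=
    (t2.eventually h3).mono fun q hq => sub_eq_zero.1 (hq.2 rfl)
  refine ⟨ξ, Θ, aξ, ξ0, h1, h2, dξ.and ((t1.eventually h3).mono fun q hq => hq.1 (by simp [G])), ?_⟩
  filter_upwards [e1.eventually_nhds, t3.eventually dξ, h1.eventually_analyticAt] with q a b c
  have dΘ : HasDerivAt (fun x => Θ (q.1, x)) (dx Θ q) q.2 :=
    (hasDerivAt_snd (f := Θ) (p := q.1) (x := q.2) c.differentiableAt).differentiableAt.hasDerivAt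
  have c1 := HasDerivAt.comp (h₂ := fun y => ξ (q.1, y)) (h := fun x => Θ (q.1, x)) q.2 b dΘ
  have c2 : (fun x => ξ (q.1, Θ (q.1, x))) =ᶠ[𝓝 q.2] fun x => x :=
    ((continuousAt_const.prodMk continuousAt_id :
      ContinuousAt (fun x : ℂ => (q.1, x)) q.2).eventually a)
  exact c1.unique ((hasDerivAt_id q.2).congr_of_eventuallyEq c2)

/-- the local data of a regular state -/
theorem bx_loc (hs : S_SG) (hp : S_PRIM) {g : ℂ → ℂ} {W₀ y₀ v₀ : ℂ}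
    (hg : DifferentiableOn ℂ g (Lo 0)) (R : Reg g W₀ y₀ v₀) :
    ∃ (ξ Θ : ℂ × ℂ → ℂ) (r : ℝ), 0 < r ∧ Fam g Θ (ball (W₀, 0) r) ∧
      ∀ᶠ s in 𝓝 ((W₀, y₀), v₀), (Law g s.1.1 s.1.2 s.2 →
        HasDerivAt (fun y => ξ (s.1.1, y)) (s.1.1 / s.2) s.1.2) ∧ AnalyticAt ℂ ξ s.1 ∧
        Θ (s.1.1, ξ s.1) = s.1.2 ∧ ‖ξ s.1‖ < r / 4 ∧ ‖s.1.1 - W₀‖ < r ∧ s.1.1 ≠ 0 := by
  obtain ⟨v0, ν, aν, ν0, hν⟩ := bx_nu hs hg R
  have n0 : ν (W₀, y₀) ≠ 0 := ν0 ▸ v0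
  obtain ⟨ξ, Θ, aξ, ξ0, aΘ, Θ0, h1, h2⟩ := bx_th hp (k := fun q => q.1 / ν q)
    (analyticAt_fst.div aν n0) (div_ne_zero R.1 n0)
  have t3 : Tendsto (fun q : ℂ × ℂ => (q.1, Θ q)) (𝓝 (W₀, 0)) (𝓝 (W₀, y₀)) := by
    have := (continuousAt_fst (p := (W₀, (0 : ℂ)))).prodMk aΘ.continuousAt
    simpa only [ContinuousAt, Θ0] using this
  have t4 : Tendsto (fun q : ℂ × ℂ => (q, ν q)) (𝓝 (W₀, y₀)) (𝓝 ((W₀, y₀), v₀)) := by
    have := continuousAt_id.prodMk aν.continuousAt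
    simpa only [ContinuousAt, ν0, id] using this
  have e : ∀ᶠ q in 𝓝 (W₀, (0 : ℂ)), AnalyticAt ℂ Θ q ∧ (Θ q).im < 0 ∧
      Law g q.1 (Θ q) (vv Θ q) := by
    have c1 : ∀ᶠ q in 𝓝 (W₀, (0 : ℂ)), (Θ q).im < 0 :=
      (Complex.continuous_im.continuousAt.comp aΘ.continuousAt).eventually_lt continuousAt_const
        (by simpa [Θ0] using R.2.1)
    filter_upwards [aΘ.eventually_analyticAt, c1, h2, (t4.comp t3).eventually hν,
      t3.eventually (aν.continuousAt.eventually_ne n0)] with q a b c d n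
    refine ⟨a, b, ?_⟩
    have : vv Θ q = ν (q.1, Θ q) := by
      unfold vv
      field_simp at c
      linear_combination c
    rw [this]
    exact d.2 rfl
  obtain ⟨r, r0, hr⟩ := Metric.eventually_nhds_iff_ball.1 e
  refine ⟨ξ, Θ, r, r0, ⟨fun q hq => (hr q hq).1, fun q hq => (hr q hq).2.1,
    fun q hq => (hr q hq).2.2⟩, ?_⟩
  have f1 : Tendsto (fun s : (ℂ × ℂ) × ℂ => s.1) (𝓝 ((W₀, y₀), v₀)) (𝓝 (W₀, y₀)) :=
    continuousAt_fst
  have c2 : ∀ᶠ q in 𝓝 (W₀, y₀), ‖ξ q‖ < r / 4 :=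
    aξ.continuousAt.norm.eventually_lt continuousAt_const (by simp [ξ0, r0])
  have c3 : ∀ᶠ q : ℂ × ℂ in 𝓝 (W₀, y₀), ‖q.1 - W₀‖ < r :=
    (continuousAt_fst.sub continuousAt_const).norm.eventually_lt continuousAt_const (by simp [r0])
  have c4 : ∀ᶠ q : ℂ × ℂ in 𝓝 (W₀, y₀), q.1 ≠ 0 := continuousAt_fst.eventually_ne R.1
  filter_upwards [hν, f1.eventually h1, f1.eventually aξ.eventually_analyticAt, f1.eventually c2,
    f1.eventually c3, f1.eventually c4] with s a b c d e f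
  exact ⟨fun l => by rw [← a.1 l]; exact b.1, c, b.2, d, e, f⟩

theorem box (hs : S_SG) (hp : S_PRIM) (hr : S_REG) : S_BOX := by
  intro g W₀ y₀ v₀ hg R
  obtain ⟨ξ, Θ, r, r0, FΘ, hQ⟩ := bx_loc hs hp hg R
  obtain ⟨η, η0, hη⟩ := Metric.eventually_nhds_iff_ball.1 hQ
  refine ⟨r / 2, by positivity, η, η0, fun f O p hO F hp' n1 n2 n3 => ?_⟩
  let st : ℂ × ℂ → (ℂ × ℂ) × ℂ := fun q => ((q.1, f q), vv f q)
  have m0 : st p ∈ ball ((W₀, y₀), v₀) η := by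
    simp only [mem_ball, Prod.dist_eq, st, max_lt_iff]
    simp only [dist_eq_norm]
    exact ⟨⟨n1, n2⟩, n3⟩
  have cs : ContinuousAt st p := (continuousAt_fst.prodMk (F.an p hp').continuousAt).prodMk
    (hr g f O hg hO F p hp' (hη _ m0).2.2.2.2.2).2.2.1.continuousAt
  obtain ⟨e, e0, he⟩ := Metric.eventually_nhds_iff_ball.1
    ((cs.eventually (isOpen_ball.mem_nhds m0)).and (hO.mem_nhds hp'))
  have mem : ∀ W ∈ ball p.1 e, ∀ x ∈ ball p.2 e, (W, x) ∈ ball p e := fun W a x b => by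
    rw [← ball_prod_same]; exact ⟨a, b⟩
  let u : ℂ × ℂ → ℂ := fun q => ξ (q.1, f q) - q.2
  have au : ∀ q ∈ ball p e, AnalyticAt ℂ u q := fun q hq =>
    (AnalyticAt.comp (g := ξ) (f := fun q : ℂ × ℂ => (q.1, f q)) (hη _ (he q hq).1).2.1
      (analyticAt_fst.prod (F.an q (he q hq).2))).sub analyticAt_snd
  have du : ∀ q ∈ ball p e, HasDerivAt (fun x => u (q.1, x)) 0 q.2 := fun q hq => by
    have Q := hη _ (he q hq).1
    have df : HasDerivAt (fun x => f (q.1, x)) (dx f q) q.2 :=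
      (hasDerivAt_snd (f := f) (p := q.1) (x := q.2)
        (F.an q (he q hq).2).differentiableAt).differentiableAt.hasDerivAt
    have c1 := (HasDerivAt.comp (h₂ := fun y => ξ (q.1, y)) (h := fun x => f (q.1, x)) q.2
      (Q.1 (F.law q (he q hq).2)) df).sub (hasDerivAt_id q.2)
    have v0 := (hr g f O hg hO F q (he q hq).2 Q.2.2.2.2.2).1
    have : q.1 / vv f q * dx f q - 1 = 0 := by
      rw [div_mul_eq_mul_div]; exact sub_eq_zero.2 (div_self v0)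
    exact this ▸ c1
  have cu : ∀ W ∈ ball p.1 e, ∀ x ∈ ball p.2 e, u (W, x) = u (W, p.2) := fun W a x b =>
    isOpen_ball.is_const_of_deriv_eq_zero (convex_ball p.2 e).isPreconnected
      (f := fun x => u (W, x))
      (fun x b => (du _ (mem W a x b)).differentiableAt.differentiableWithinAt)
      (fun x b => (du _ (mem W a x b)).deriv) b (mem_ball_self e0)
  let T : ℂ × ℂ → ℂ × ℂ := fun q => (q.1, q.2 + u (q.1, p.2))
  have mT : ∀ q ∈ ball p.1 e ×ˢ ball p.2 (r / 2), T q ∈ ball (W₀, (0 : ℂ)) r := fun q hq => by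
    have Q := hη _ (he _ (mem q.1 hq.1 p.2 (mem_ball_self e0))).1
    have b : ‖q.2 - p.2‖ < r / 2 := by simpa only [mem_ball, dist_eq_norm] using hq.2
    simp only [mem_ball, Prod.dist_eq, T, max_lt_iff]
    simp only [dist_eq_norm, sub_zero]
    refine ⟨Q.2.2.2.2.1, ?_⟩
    have : q.2 + u (q.1, p.2) = (q.2 - p.2) + ξ (q.1, f (q.1, p.2)) := by simp only [u]; ring
    rw [this]
    have q4 : ‖ξ (q.1, f (q.1, p.2))‖ < r / 4 := Q.2.2.2.1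
    linarith [norm_add_le (q.2 - p.2) (ξ (q.1, f (q.1, p.2)))]
  refine ⟨e, e0, fun q => Θ (T q), ⟨fun q hq => ?_, fun q hq => FΘ.lo _ (mT q hq),
    fun q hq => ?_⟩, ?_⟩
  · refine AnalyticAt.comp (g := Θ) (FΘ.an _ (mT q hq)) (analyticAt_fst.prod
      (analyticAt_snd.add (AnalyticAt.comp (g := u) (f := fun q : ℂ × ℂ => (q.1, p.2))
        (au _ (mem q.1 hq.1 p.2 (mem_ball_self e0))) (analyticAt_fst.prod analyticAt_const))))
  · have : vv (fun q => Θ (T q)) q = vv Θ (T q) := by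
      simp only [vv, dx, T]
      rw [deriv_comp_add_const (fun x => Θ (q.1, x))]
    rw [this]
    exact FΘ.law _ (mT q hq)
  · filter_upwards [ball_mem_nhds p e0] with q hq
    have hq' : q ∈ ball p.1 e ×ˢ ball p.2 e := by rwa [ball_prod_same]
    have := cu q.1 hq'.1 q.2 hq'.2
    simp only [T, ← this, u, add_sub_cancel]
    exact (hη _ (he q hq).1).2.2.1

end Vale.Agent.P097F.D
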