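import Vale.Agent.P097F.D.Defs

/-!
# P097F.D: a chart composed with the square root
-/

set_option linter.all false

noncomputable section

namespace Vale.Agent.P097F.D

open Set Metric Filter Topology Complex Vale.Agent.P097D

namespace Chf

theorem sl {c x : ℂ} (h : ¬ Sl c x) : ¬ Sl 0 (x - c) := fun k =>
  h ⟨by simpa [sub_eq_zero] using k.1, by simpa using k.2⟩

theorem ne {z : ℂ} (h : ¬ Sl 0 z) : z ≠ 0 := by
  rintro rfl; exact h ⟨rfl, le_rfl⟩

end Chf

open Chf in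
theorem chf (hG : S_SG) (hQ : S_SQ) (hR : S_REG) : S_CHF := by
  intro g V r Φ Δ X hg hV hW hC hX hr
  have mem : ∀ p : ℂ × ℂ, p.1 ∈ V → ‖p.2 - X p.1‖ < r ^ 2 → ¬ Sl (X p.1) p.2 →
      (p.1, sq (p.2 - X p.1)) ∈ V ×ˢ ball (0 : ℂ) r := fun p h1 h2 h3 =>
    ⟨h1, by rw [mem_ball_zero_iff, hQ.2.2.1 _ (ne (sl h3))]; exact (Real.sqrt_lt' hr).2 h2⟩
  have s0 : ∀ z, ¬ Sl 0 z → sq z ≠ 0 := fun z hz h =>
    ne hz (by rw [← hQ.1 z (ne hz), h]; simp)
  have hd : ∀ p : ℂ × ℂ, p.1 ∈ V → ‖p.2 - X p.1‖ < r ^ 2 → ¬ Sl (X p.1) p.2 →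
      de g (fun p => Φ (p.1, sq (p.2 - X p.1))) p = Δ (p.1, sq (p.2 - X p.1)) := by
    intro p h1 h2 h3
    have m := mem p h1 h2 h3
    have a1 : HasDerivAt (fun t => Φ (p.1, t)) (dx Φ (p.1, sq (p.2 - X p.1)))
        (sq (p.2 - X p.1)) :=
      ((hC.anΦ _ m).comp_of_eq (f := fun t : ℂ => (p.1, t)) (by fun_prop) rfl).differentiableAt.hasDerivAt
    have a2 : HasDerivAt (fun x => sq (x - X p.1)) (1 / (2 * sq (p.2 - X p.1))) p.2 :=
      HasDerivAt.comp_sub_const p.2 (X p.1) (hQ.2.2.2 _ (sl h3))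
    have a3 : dx (fun p => Φ (p.1, sq (p.2 - X p.1))) p =
        dx Φ (p.1, sq (p.2 - X p.1)) * (1 / (2 * sq (p.2 - X p.1))) :=
      (HasDerivAt.comp (h₂ := fun t => Φ (p.1, t)) (h := fun x => sq (x - X p.1)) p.2 a1 a2).deriv
    have o := hC.ode _ m
    have n := s0 _ (sl h3)
    simp only [de, vv, a3] at o ⊢
    field_simp
    linear_combination o
  refine ⟨⟨⟨fun p hp => ?_, fun p hp => (hC.lo _ (mem p hp.1 hp.2.1 hp.2.2)).1, fun p hp => ?_⟩,
    hd⟩, fun f O hO hf W hWV hp he => ?_⟩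
  · have aX : AnalyticAt ℂ (fun p : ℂ × ℂ => p.2 - X p.1) p :=
      analyticAt_snd.sub ((hX _ hp.1).comp_of_eq analyticAt_fst rfl)
    exact (hC.anΦ _ (mem p hp.1 hp.2.1 hp.2.2)).comp_of_eq
      (analyticAt_fst.prod ((hQ.2.1 _ (sl hp.2.2)).comp_of_eq aX rfl)) rfl
  · have m := mem p hp.1 hp.2.1 hp.2.2
    have e := hd p hp.1 hp.2.1 hp.2.2
    have g0 : g (Φ (p.1, sq (p.2 - X p.1))) ≠ 0 := fun h => by
      have o := hC.ode _ m
      rw [h, mul_zero, zero_mul] at o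
      exact mul_ne_zero (mul_ne_zero (show (4 : ℂ) ≠ 0 by norm_num) (s0 _ (sl hp.2.2))) (hC.lo _ m).2.1 o.symm
    have i := hC.inv _ m
    have k := hG.2.2.1 (Δ (p.1, sq (p.2 - X p.1)))
    simp only [de] at e
    simp only [Law, e] at i ⊢
    apply mul_right_cancel₀ (pow_ne_zero 3 g0)
    rw [← e] at k i ⊢
    linear_combination 8 * k - i
  · have hU : IsOpen (Lo (X W).im) := isOpen_lt Complex.continuous_im continuous_const
    haveI : (𝓝[Lo (X W).im] (X W)).NeBot := by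
      rw [← mem_closure_iff_nhdsWithin_neBot, Lo, Complex.closure_setOf_im_lt]
      exact le_refl (X W).im
    have ns : ∀ x ∈ Lo (X W).im, ¬ Sl (X W) x := fun x hx h => absurd h.2 (not_le.2 hx)
    have t0 : Tendsto (fun x => x - X W) (𝓝[Lo (X W).im] (X W)) (𝓝 0) := by
      simpa using (tendsto_nhdsWithin_of_tendsto_nhds (s := Lo (X W).im)
        (tendsto_id (x := 𝓝 (X W)))).sub_const (X W)
    have t1 : Tendsto (fun x => sq (x - X W)) (𝓝[Lo (X W).im] (X W)) (𝓝 0) := by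
      rw [tendsto_zero_iff_norm_tendsto_zero]
      have := t0.norm.sqrt
      rw [norm_zero, Real.sqrt_zero] at this
      refine this.congr' ?_
      filter_upwards [self_mem_nhdsWithin] with x hx
      exact (hQ.2.2.1 _ (ne (sl (ns x hx)))).symm
    have t2 : Tendsto (fun x => (W, sq (x - X W))) (𝓝[Lo (X W).im] (X W)) (𝓝 (W, 0)) :=
      tendsto_const_nhds.prodMk_nhds t1
    have t3 : Tendsto (fun x => (W, x)) (𝓝[Lo (X W).im] (X W)) (𝓝 (W, X W)) :=
      tendsto_const_nhds.prodMk_nhds (tendsto_nhdsWithin_of_tendsto_nhds tendsto_id)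
    have m0 : ((W, 0) : ℂ × ℂ) ∈ V ×ˢ ball (0 : ℂ) r := ⟨hWV, mem_ball_self hr⟩
    obtain ⟨-, hreg, -, an, -⟩ := hR g f O hg hO hf _ hp (hW W hWV)
    have e1 : f (W, X W) = Φ (W, 0) := tendsto_nhds_unique
      (((hf.an _ hp).continuousAt.tendsto.comp t3).congr' he)
      ((hC.anΦ _ m0).continuousAt.tendsto.comp t2)
    have e2 : de g f (W, X W) = Δ (W, 0) := by
      refine tendsto_nhds_unique ((an.continuousAt.tendsto.comp t3).congr' ?_)
        ((hC.anΔ _ m0).continuousAt.tendsto.comp t2)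
      filter_upwards [eventually_eventually_nhdsWithin.2 he, he, self_mem_nhdsWithin,
        t0.norm.eventually (gt_mem_nhds (show ‖(0 : ℂ)‖ < r ^ 2 by simpa using pow_pos hr 2))]
        with x h1 h2 h3 h4
      rw [hU.nhdsWithin_eq h3] at h1
      have := hd (W, x) hWV h4 (ns x h3)
      simp only [de, vv, dx, Function.comp] at this ⊢
      rw [← this, h2, EventuallyEq.deriv_eq h1]
    have n0 := (hC.lo _ m0).2.1
    have g0 : g (f (W, X W)) ≠ 0 := fun h => n0 (by rw [← e2, de, h]; simp)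
    rcases hC.ty with h | h
    · exact g0 (e1 ▸ h W hWV)
    · exact hreg.2.2.2.resolve_left g0 (e2 ▸ h W hWV :)

end Vale.Agent.P097F.D
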