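import Vale.Agent.P097F.D.Defs
import Vale.Agent.P097T.EndTop1

/-! # P097F.D: the state converges to a singular state at a top point outside the domain -/

set_option linter.all false

noncomputable section

namespace Vale.Agent.P097F.D

open Set Metric Filter Topology Complex Vale.Agent.P097D
open Vale.Agent.P097T.EndTop (HD Fl clus hd_mem hd_mono fl_neBot)

theorem cl_cnt (f : ℂ → ℂ) (c : ℂ) :
    {y | f y = c ∧ ∃ f' ≠ 0, HasDerivAt f f' y}.Countable := by
  refine IsLindelof.countable_of_isDiscrete (HereditarilyLindelofSpace.isLindelof _) ?_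
  rw [isDiscrete_iff_nhdsNE]
  rintro x ⟨hx, f', h0, hd⟩
  rw [inf_principal_eq_bot]
  filter_upwards [hd.eventually_ne (c := c) h0] with z hz hh
  exact hz hh.1

theorem cl_SS (d : ℂ) : HasDerivAt SS (d * sin d) d := by
  have h := (Complex.hasDerivAt_sin d).sub ((hasDerivAt_id d).mul (Complex.hasDerivAt_cos d))
  have e : d * sin d = cos d - (1 * cos d + id d * -sin d) := by simp
  rw [e]
  exact h

theorem cl_d (g : ℂ → ℂ) (W : ℂ) : {d | ∃ y, Sng g W y d}.Countable := by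
  refine ((countable_range fun k : ℤ => (k : ℂ) * (Real.pi : ℂ)).union (cl_cnt SS 0)).mono ?_
  rintro d ⟨y, -, -, h3, h4, -, h6⟩
  by_cases hs : sin d = 0
  · obtain ⟨k, hk⟩ := Complex.sin_eq_zero_iff.1 hs
    exact Or.inl ⟨k, hk.symm⟩
  · have hg : g y = 0 := h6.resolve_right hs
    refine Or.inr ⟨?_, _, mul_ne_zero h4 hs, cl_SS d⟩
    rw [hg] at h3
    simpa using h3.symm

theorem cl_lo : IsOpen (Lo 0) := isOpen_lt Complex.continuous_im continuous_const

theorem cl_y {g : ℂ → ℂ} (hg : DifferentiableOn ℂ g (Lo 0)) (W : ℂ) :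
    {y | ∃ d, Sng g W y d}.Countable := by
  refine ((cl_cnt g 0).union ((cl_d g W).biUnion fun d _ =>
    cl_cnt (fun y => (W * g y) ^ 3) (24 * SS d))).mono ?_
  rintro y ⟨d, hs⟩
  obtain ⟨h1, h2, h3, h4, h5, h6⟩ := id hs
  have hd : HasDerivAt g (deriv g y) y := (hg.differentiableAt (cl_lo.mem_nhds h2)).hasDerivAt
  by_cases h0 : g y = 0
  · exact Or.inl ⟨h0, _, h5, hd⟩
  · refine Or.inr (mem_biUnion (⟨y, hs⟩ : d ∈ {d | ∃ y, Sng g W y d}) ⟨h3, _, ?_,
      (hd.const_mul W).pow 3⟩)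
    simp [h1, h0, h5]

theorem cl_lim {F : Ultrafilter ℂ} {f : ℂ → ℂ} {B : ℝ} (h : ∀ᶠ x in (F : Filter ℂ), ‖f x‖ ≤ B) :
    ∃ c, Tendsto f F (𝓝 c) := by
  obtain ⟨c, -, hc⟩ := isCompact_iff_ultrafilter_le_nhds'.1 (isCompact_closedBall (0 : ℂ) B)
    (F.map f) (by
      rw [Ultrafilter.mem_map]
      filter_upwards [h] with x hx
      simpa using hx)
  exact ⟨c, hc⟩

theorem clusS (hO : S_OM) (hS : S_SG) (hR : S_REG) (hC : S_CONT) : S_CLUS := by
  intro E Y W x₀ hM hZ hP ha hb hn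
  obtain ⟨hU, hT, hN, hin, τ, hτ, B, hB⟩ := hP
  obtain ⟨hop, -, -, -⟩ := hO E hM.ok
  have hW : W ≠ 0 := hM.ok.ne W hU
  have hlt := hM.ok.lt
  have hg := hM.ok.ang
  obtain ⟨δ, hδ, d1, d2, d3⟩ : ∃ δ > 0, δ ≤ x₀.re - E.α ∧ δ ≤ E.β - x₀.re ∧ δ ≤ x₀.im - E.b₁ :=
    ⟨min (x₀.re - E.α) (min (E.β - x₀.re) (x₀.im - E.b₁)),
      lt_min (by linarith) (lt_min (by linarith) (by linarith)), min_le_left _ _,
      (min_le_right _ _).trans (min_le_left _ _), (min_le_right _ _).trans (min_le_right _ _)⟩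
  have hd : ∀ {ρ : ℝ} {x : ℂ}, x ∈ HD x₀ ρ →
      |x.re - x₀.re| < ρ ∧ x₀.im - ρ < x.im ∧ x.im < x₀.im := by
    intro ρ x hx
    have h1 : ‖x - x₀‖ < ρ := by simpa [dist_eq_norm] using hx.1
    have h2 := (Complex.abs_re_le_norm (x - x₀)).trans_lt h1
    have h3 := (Complex.abs_im_le_norm (x - x₀)).trans_lt h1
    rw [sub_re] at h2
    rw [sub_im, abs_lt] at h3
    exact ⟨h2, by linarith [h3.1], hx.2⟩
  have hrc : ∀ x ∈ HD x₀ δ, x ∈ Rc E.α E.β E.b₁ x₀.im := by
    intro x hx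
    obtain ⟨h1, h2, h3⟩ := hd hx
    rw [abs_lt] at h1
    exact ⟨by linarith [h1.1], by linarith [h1.2], by linarith, h3⟩
  have hom : ∀ x ∈ HD x₀ δ, (W, x) ∈ E.Om := fun x hx =>
    hin x ⟨(hrc x hx).1, (hrc x hx).2.1, hlt.trans (hrc x hx).2.2.1, (hrc x hx).2.2.2⟩
  have hreg := fun x (hx : x ∈ HD x₀ δ) => hR E.g Y E.Om hg hop hM.fam (W, x) (hom x hx) hW
  -- no regular cluster state
  have A : ∀ (F : Ultrafilter ℂ) (y v : ℂ), (F : Filter ℂ) ≤ Fl x₀ →
      Tendsto (fun x => Y (W, x)) F (𝓝 y) → Tendsto (fun x => vv Y (W, x)) F (𝓝 v) →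
      ¬ Reg E.g W y v := by
    intro F y v hF hy hv hr
    obtain ⟨r, hr0, η, hη, H⟩ := hC E Y W y v hM hr
    obtain ⟨ρ, hρ, r1, r2⟩ : ∃ ρ > 0, 4 * ρ ≤ r ∧ 4 * ρ ≤ δ :=
      ⟨min r δ / 4, by positivity, by linarith [min_le_left r δ], by linarith [min_le_right r δ]⟩
    have e1 : ∀ᶠ x in (F : Filter ℂ), x ∈ HD x₀ ρ := hF (hd_mem x₀ hρ)
    have e2 := Metric.tendsto_nhds.1 hy η hη
    have e3 := Metric.tendsto_nhds.1 hv η hη
    obtain ⟨x₁, h1, h2, h3⟩ := (e1.and (e2.and e3)).exists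
    obtain ⟨k1, k2, k3⟩ := hd h1
    rw [abs_lt] at k1
    rw [dist_eq_norm] at h2 h3
    refine hn (H (x₀.re - ρ) (x₀.re + ρ) (x₀.im - ρ) ((x₁.im + x₀.im) / 2) (by linarith)
      (by linarith) (fun x hx => hin x ?_) x₁
      ⟨by linarith [k1.1], by linarith [k1.2], k2, by linarith⟩ h2 h3 x₀
      ⟨by linarith, by linarith, by linarith, by linarith⟩)
    obtain ⟨q1, q2, q3, q4⟩ := hx
    exact ⟨by linarith, by linarith, by linarith, by linarith⟩
  have csg : Continuous sg := continuousOn_univ.1 hS.1.continuousOn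
  have cSS : Continuous SS := continuous_iff_continuousAt.2 fun d => (cl_SS d).continuousAt
  -- every cluster state is singular
  have Bq : ∀ F : Ultrafilter ℂ, (F : Filter ℂ) ≤ Fl x₀ → ∃ y d, Sng E.g W y d ∧
      Tendsto (fun x => Y (W, x)) F (𝓝 y) ∧ Tendsto (fun x => de E.g Y (W, x)) F (𝓝 d) := by
    intro F hF
    have e1 : ∀ᶠ x in (F : Filter ℂ), x ∈ HD x₀ δ := hF (hd_mem x₀ hδ)
    obtain ⟨y, hy⟩ := cl_lim (F := F) (f := fun x => Y (W, x)) (B := B)
      (e1.mono fun x hx => (hB x (hrc x hx)).2.1)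
    obtain ⟨d, hdl⟩ := cl_lim (F := F) (f := fun x => de E.g Y (W, x)) (B := B)
      (e1.mono fun x hx => (hB x (hrc x hx)).2.2)
    have hyi : y.im < 0 := by
      have h1 : y.im ≤ -τ := le_of_tendsto ((Complex.continuous_im.tendsto y).comp hy)
        (e1.mono fun x hx => (hB x (hrc x hx)).1)
      linarith
    have hgy : Tendsto (fun x => E.g (Y (W, x))) F (𝓝 (E.g y)) :=
      ((hg.differentiableAt (cl_lo.mem_nhds hyi)).continuousAt.tendsto).comp hy
    have hinv : (W * E.g y) ^ 3 = 24 * SS d := by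
      refine tendsto_nhds_unique_of_eventuallyEq ((hgy.const_mul W).pow 3)
        (((cSS.tendsto d).comp hdl).const_mul 24) ?_
      exact e1.mono fun x hx => (hreg x hx).2.2.2.2
    have hlaw : ∀ v, Tendsto (fun x => vv Y (W, x)) F (𝓝 v) → Law E.g W y v := by
      intro v hv
      refine tendsto_nhds_unique_of_eventuallyEq ((hv.pow 3).mul
        ((csg.tendsto _).comp ((hv.mul hgy).div_const 2))) tendsto_const_nhds ?_
      exact e1.mono fun x hx => hM.fam.law (W, x) (hom x hx)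
    refine ⟨y, d, ?_, hy, hdl⟩
    by_cases h0 : E.g y = 0
    · refine ⟨hW, hyi, hinv, ?_, hZ y hyi h0, Or.inl h0⟩
      rintro rfl
      have t1 : Tendsto (fun x => sg (de E.g Y (W, x))) F (𝓝 1) := by
        have := (csg.tendsto 0).comp hdl
        rwa [hS.2.1] at this
      have t2 : ∀ᶠ x in (F : Filter ℂ), 1 / 2 < ‖sg (de E.g Y (W, x))‖ :=
        t1.norm.eventually (lt_mem_nhds (by norm_num))
      obtain ⟨v, hv⟩ := cl_lim (F := F) (f := fun x => vv Y (W, x)) (B := 1 + 2 * ‖W‖ ^ 3) (by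
        filter_upwards [e1, t2] with x hx h2
        have h3 : vv Y (W, x) ^ 3 * sg (de E.g Y (W, x)) = W ^ 3 := hM.fam.law (W, x) (hom x hx)
        have h4 := congrArg norm h3
        rw [norm_mul, norm_pow, norm_pow] at h4
        have h5 := norm_nonneg (vv Y (W, x))
        have h6 : ‖vv Y (W, x)‖ ^ 3 ≤ 2 * ‖W‖ ^ 3 := by
          rw [← h4]
          nlinarith [pow_nonneg h5 3]
        by_contra hc
        push Not at hc
        have h7 : 1 ≤ ‖vv Y (W, x)‖ := by nlinarith [pow_nonneg (norm_nonneg W) 3]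
        have h8 : ‖vv Y (W, x)‖ ≤ ‖vv Y (W, x)‖ ^ 3 := le_self_pow₀ h7 (by norm_num)
        linarith)
      exact A F y v hF hy hv ⟨hW, hyi, hlaw v hv, Or.inl h0⟩
    · have hv : Tendsto (fun x => vv Y (W, x)) F (𝓝 (2 * d / E.g y)) := by
        refine ((hdl.const_mul 2).div hgy h0).congr' ?_
        filter_upwards [hgy.eventually_ne h0] with x hx
        simp only [de, Pi.div_apply]
        field_simp
      have hs : sin d = 0 := by
        by_contra hs
        refine A F y _ hF hy hv ⟨hW, hyi, hlaw _ hv, Or.inr ?_⟩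
        have e : 2 * d / E.g y * E.g y / 2 = d := by field_simp
        rwa [e]
      have hd0 : d ≠ 0 := by
        rintro rfl
        have : SS 0 = 0 := by simp [SS]
        rw [this, mul_zero] at hinv
        exact mul_ne_zero hW h0 (pow_eq_zero_iff (by norm_num) |>.1 hinv)
      exact ⟨hW, hyi, hinv, hd0, hN y hyi d hd0 hs hinv, Or.inr hs⟩
  haveI := fl_neBot x₀
  obtain ⟨y, d, hs, hy, hdl⟩ := Bq (Ultrafilter.of (Fl x₀)) (Ultrafilter.of_le _)
  have cp : Continuous fun x : ℂ => (W, x) := by fun_prop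
  refine ⟨y, d, hs, Tendsto.prodMk_nhds ?_ ?_⟩
  · refine clus (f := fun x => Y (W, x)) hδ (fun x hx => ?_) (cl_y hg W) (fun c hc => ?_)
      (mapClusterPt_iff_ultrafilter.2 ⟨_, Ultrafilter.of_le _, hy⟩)
    · exact ((hM.fam.an _ (hom x hx)).continuousAt.comp cp.continuousAt).continuousWithinAt
    · obtain ⟨F, hF, hc⟩ := mapClusterPt_iff_ultrafilter.1 hc
      obtain ⟨y', d', h1, h2, -⟩ := Bq F hF
      rw [tendsto_nhds_unique hc h2]
      exact ⟨d', h1⟩
  · refine clus (f := fun x => de E.g Y (W, x)) hδ (fun x hx => ?_) (cl_d E.g W) (fun c hc => ?_)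
      (mapClusterPt_iff_ultrafilter.2 ⟨_, Ultrafilter.of_le _, hdl⟩)
    · exact ((hreg x hx).2.2.2.1.continuousAt.comp cp.continuousAt).continuousWithinAt
    · obtain ⟨F, hF, hc⟩ := mapClusterPt_iff_ultrafilter.1 hc
      obtain ⟨y', d', h1, -, h2⟩ := Bq F hF
      rw [tendsto_nhds_unique hc h2]
      exact ⟨y', h1⟩

end Vale.Agent.P097F.D
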