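import Vale.Agent.P097F.D.Defs

/-!
# P097F.D: continuation over a small box, a leaf lies in the maximal domain
-/

set_option linter.all false

noncomputable section

namespace Vale.Agent.P097F.D

open Set Metric Filter Topology Complex Vale.Agent.P097D

namespace Cont

lemma rc_op (a b s t : ℝ) : IsOpen (Rc a b s t) :=
  (isOpen_lt continuous_const continuous_re).inter ((isOpen_lt continuous_re continuous_const).inter
    ((isOpen_lt continuous_const continuous_im).inter (isOpen_lt continuous_im continuous_const)))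

lemma rc_cx (a b s t : ℝ) : Convex ℝ (Rc a b s t) :=
  (convex_halfSpace_re_gt a).inter ((convex_halfSpace_re_lt b).inter
    ((convex_halfSpace_im_gt s).inter (convex_halfSpace_im_lt t)))

lemma rk_cp (a b s t : ℝ) : IsCompact (Rk a b s t) := by
  have : Rk a b s t = Icc a b ×ℂ Icc s t := by
    ext z
    simp [Rk, mem_reProdIm, and_assoc]
  rw [this]
  exact isCompact_Icc.reProdIm isCompact_Icc

lemma nrm {x y : ℂ} {p q : ℝ} (h1 : |x.re - y.re| ≤ p) (h2 : |x.im - y.im| ≤ q) :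
    dist x y ≤ p + q := by
  have := norm_le_abs_re_add_abs_im (x - y)
  rw [dist_eq_norm]
  simp only [sub_re, sub_im] at this
  linarith

lemma slice {E : Dat} (h : IsOpen E.Om) (W : ℂ) : IsOpen {x : ℂ | (W, x) ∈ E.Om} :=
  h.preimage (continuous_const.prodMk continuous_id)

lemma dSS (z : ℂ) : HasDerivAt SS (z * sin z) z :=
  ((Complex.hasDerivAt_sin z).sub ((hasDerivAt_id z).mul (Complex.hasDerivAt_cos z))).congr_deriv
    (by simp)

end Cont

open Cont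

theorem cont (hO : S_OM) (hU : S_UP) (hB : S_BOX) : S_CONT := by
  intro E Y W₀ y₀ v₀ hM hR
  obtain ⟨o1, -, -, o4⟩ := hO E hM.ok
  obtain ⟨r, r0, η, η0, H⟩ := hB E.g W₀ y₀ v₀ hM.ok.ang hR
  refine ⟨r / 4, by positivity, η, η0, fun a b s h hab hsh hK x₁ hx₁ h1 h2 x hx => ?_⟩
  obtain ⟨k1, k2, k3, k4⟩ := hx₁
  have hx₁ : x₁ ∈ Rc a b s h := ⟨k1, k2, k3, k4⟩
  obtain ⟨e, e0, F, hF, hE⟩ := H Y E.Om (W₀, x₁) o1 hM.fam (hK x₁ ⟨k1.le, k2.le, k3.le, k4.le⟩)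
    (by simpa using η0) h1 h2
  have tube : ∀ᶠ W in 𝓝 W₀, ∀ x ∈ Rk a b s h, (W, x) ∈ E.Om :=
    (rk_cp a b s h).eventually_forall_of_forall_eventually (P := fun W x => (W, x) ∈ E.Om)
      fun x hx => o1.mem_nhds (hK x hx)
  obtain ⟨e', e'0, he'⟩ := Metric.eventually_nhds_iff_ball.1 tube
  have hs : E.b₀ ≤ s := (o4 _ (hK ⟨a, s⟩ ⟨le_rfl, by simp only; linarith, le_rfl,
    by simp only; linarith⟩)).2.2.2.le
  have m0 : 0 < min e e' := lt_min e0 e'0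
  have sub1 : ball W₀ (min e e') ×ˢ Rc a b s h ⊆ E.Om := fun p hp =>
    he' p.1 (ball_subset_ball (min_le_right _ _) hp.1) p.2
      ⟨hp.2.1.le, hp.2.2.1.le, hp.2.2.2.1.le, hp.2.2.2.2.le⟩
  have sub2 : ball W₀ (min e e') ×ˢ Rc a b s (h + r / 4) ⊆ ball W₀ e ×ˢ ball x₁ r := fun p hp => by
    obtain ⟨hp1, l1, l2, l3, l4⟩ := hp
    refine ⟨ball_subset_ball (min_le_left _ _) hp1, ?_⟩
    have := nrm (x := p.2) (y := x₁) (p := r / 4) (q := r / 2) (abs_le.2 ⟨by linarith, by linarith⟩)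
      (abs_le.2 ⟨by linarith, by linarith⟩)
    rw [mem_ball]
    linarith
  have sub3 : ball W₀ (min e e') ×ˢ Rc a b s h ⊆ ball W₀ (min e e') ×ˢ Rc a b s (h + r / 4) :=
    fun p hp => ⟨hp.1, hp.2.1, hp.2.2.1, hp.2.2.2.1, by linarith [hp.2.2.2.2]⟩
  have eq : EqOn F Y (ball W₀ (min e e') ×ˢ Rc a b s h) :=
    (hF.an.mono (sub3.trans sub2)).eqOn_of_preconnected_of_eventuallyEq (hM.fam.an.mono sub1)
      ((convex_ball _ _).prod (rc_cx a b s h)).isPreconnected (z₀ := (W₀, x₁))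
      ⟨mem_ball_self m0, hx₁⟩ hE
  have out := (hU E Y F (ball W₀ (min e e')) a b s h (h + r / 4) hM isOpen_ball hs (by linarith)
    (by linarith) sub1 ⟨hF.an.mono sub2, fun p hp => hF.lo p (sub2 hp),
      fun p hp => hF.law p (sub2 hp)⟩ eq).1
  exact out (mk_mem_prod (mem_ball_self m0) hx)

namespace Cont

variable {E : Dat} {Y : ℂ × ℂ → ℂ} {W : ℂ} {T : ℝ} {Z : ℂ → ℂ}

/-- in the domain the continuation is the leaf -/
lemma loc (hO : S_OM) (hM : Mx E Y) (hL : Lv E W T Z) {x : ℂ} (hx : x ∈ Rc E.α E.β E.b₀ T)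
    (hp : (W, x) ∈ E.Om) : (fun x => Y (W, x)) =ᶠ[𝓝 x] Z := by
  obtain ⟨o1, o2, -, -⟩ := hO E hM.ok
  obtain ⟨-, l2, l3, -, l5⟩ := hL
  obtain ⟨e, e0, he⟩ := Metric.isOpen_iff.1 ((slice o1 W).inter (rc_op E.α E.β E.b₀ T)) x ⟨hp, hx⟩
  have b01 := hM.ok.lt
  have x3 := hx.2.2.1
  have sub : ∀ z ∈ Rc (x.re - e / 4) (x.re + e / 4) E.b₀ (x.im + e / 4),
      (W, z) ∈ E.Om ∧ z ∈ Rc E.α E.β E.b₀ T := by
    rintro z ⟨k1, k2, k3, k4⟩
    have hz : (⟨z.re, x.im + e / 4⟩ : ℂ) ∈ ball x e := by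
      have := nrm (x := ⟨z.re, x.im + e / 4⟩) (y := x) (p := e / 4) (q := e / 4)
        (abs_le.2 ⟨by simp only; linarith, by simp only; linarith⟩)
        (abs_le.2 ⟨by simp only; linarith, by simp only; linarith⟩)
      rw [mem_ball]
      linarith
    obtain ⟨m1, m2, m3, -, m4⟩ := he hz
    exact ⟨o2 _ m1 z rfl k3 k4.le, m2, m3, k3, k4.trans m4⟩
  have a1 : AnalyticOnNhd ℂ (fun x => Y (W, x))
      (Rc (x.re - e / 4) (x.re + e / 4) E.b₀ (x.im + e / 4)) := fun z hz =>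
    (hM.fam.an _ (sub z hz).1).comp (f := fun x => (W, x)) (analyticAt_const.prod analyticAt_id)
  have a2 : AnalyticOnNhd ℂ Z (Rc (x.re - e / 4) (x.re + e / 4) E.b₀ (x.im + e / 4)) :=
    (l3.analyticOnNhd (rc_op _ _ _ _)).mono fun z hz => (sub z hz).2
  have lt : E.b₀ < min E.b₁ x.im := lt_min b01 x3
  have m1 := min_le_left E.b₁ x.im
  have m2 := min_le_right E.b₁ x.im
  have hz : (⟨x.re, (E.b₀ + min E.b₁ x.im) / 2⟩ : ℂ) ∈
      Rc (x.re - e / 4) (x.re + e / 4) E.b₀ (min E.b₁ x.im) :=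
    ⟨by simp only; linarith, by simp only; linarith, by simp only; linarith,
      by simp only; linarith⟩
  have inc : Rc (x.re - e / 4) (x.re + e / 4) E.b₀ (min E.b₁ x.im) ⊆
      Rc (x.re - e / 4) (x.re + e / 4) E.b₀ (x.im + e / 4) := fun z hz =>
    ⟨hz.1, hz.2.1, hz.2.2.1, by linarith [hz.2.2.2]⟩
  have eq := a1.eqOn_of_preconnected_of_eventuallyEq a2 (rc_cx _ _ _ _).isPreconnected (inc hz) (by
    filter_upwards [(rc_op _ _ _ _).mem_nhds hz] with z hz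
    obtain ⟨s1, s2⟩ := sub z (inc hz)
    have : z.im < E.b₁ := by linarith [hz.2.2.2]
    rw [hM.eq _ s1 this, l5 z ⟨s2.1, s2.2.1, s2.2.2.1, this⟩])
  exact eq.eventuallyEq_of_mem ((rc_op _ _ _ _).mem_nhds
    ⟨by linarith, by linarith, x3, by linarith⟩)

/-- the law holds along the whole leaf -/
lemma law (hS : S_SG) (hM : E.Ok) (hL : Lv E W T Z) {x : ℂ} (hx : x ∈ Rc E.α E.β E.b₀ T) :
    Law E.g W (Z x) (W * deriv Z x) := by
  obtain ⟨l1, l2, l3, l4, l5⟩ := hL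
  have aZ := l3.analyticOnNhd (rc_op _ _ _ _)
  have ag := hM.ang.analyticOnNhd (isOpen_lt continuous_im continuous_const)
  have a1 : AnalyticOnNhd ℂ (fun x => (W * deriv Z x) ^ 3 * sg (W * deriv Z x * E.g (Z x) / 2))
      (Rc E.α E.β E.b₀ T) := fun z hz => by
    have h1 : AnalyticAt ℂ (fun x => W * deriv Z x) z := analyticAt_const.mul (aZ z hz).deriv
    have h2 : AnalyticAt ℂ (fun x => E.g (Z x)) z := (ag _ (l4 z hz)).comp (aZ z hz)
    exact (h1.pow 3).mul ((hS.1 _ (mem_univ _)).comp ((h1.mul h2).div_const (c := 2)))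
  have b01 := hM.lt
  have hz : (⟨x.re, (E.b₀ + E.b₁) / 2⟩ : ℂ) ∈ Rc E.α E.β E.b₀ E.b₁ :=
    ⟨hx.1, hx.2.1, by simp only; linarith, by simp only; linarith⟩
  refine a1.eqOn_of_preconnected_of_eventuallyEq (g := fun _ => W ^ 3) analyticOnNhd_const
    (rc_cx _ _ _ _).isPreconnected (z₀ := ⟨x.re, (E.b₀ + E.b₁) / 2⟩)
    ⟨hz.1, hz.2.1, hz.2.2.1, hz.2.2.2.trans l2⟩ ?_ hx
  filter_upwards [(rc_op _ _ _ _).mem_nhds hz] with z hz
  have e : Z =ᶠ[𝓝 z] fun x => E.A (W, x) :=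
    Filter.eventually_of_mem ((rc_op _ _ _ _).mem_nhds hz) l5
  have := hM.fam.law (W, z) ⟨l1, hz⟩
  rw [e.deriv_eq, l5 z hz]
  exact this

/-- the states of a leaf are regular -/
lemma reg (hS : S_SG) (hM : E.Ok) (hN : NE E.g W) (hL : Lv E W T Z) {x : ℂ}
    (hx : x ∈ Rc E.α E.β E.b₀ T) : Reg E.g W (Z x) (W * deriv Z x) := by
  have W0 := hM.ne W hL.1
  have lw := law hS hM hL hx
  have lo := hL.2.2.2.1 x hx
  refine ⟨W0, lo, lw, ?_⟩
  by_contra hc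
  rw [not_or, not_not] at hc
  obtain ⟨g0, s0⟩ := hc
  have v0 : W * deriv Z x ≠ 0 := fun h => by
    rw [Law, h] at lw
    exact pow_ne_zero 3 W0 (by rw [← lw]; simp)
  have inv : ∀ z ∈ Rc E.α E.β E.b₀ T,
      (W * E.g (Z z)) ^ 3 = 24 * SS (W * deriv Z z * E.g (Z z) / 2) := fun z hz => by
    have h1 := law hS hM hL hz
    have h2 := hS.2.2.1 (W * deriv Z z * E.g (Z z) / 2)
    rw [Law] at h1
    linear_combination 8 * h2 - E.g (Z z) ^ 3 * h1
  have d0 : W * deriv Z x * E.g (Z x) / 2 ≠ 0 := div_ne_zero (mul_ne_zero v0 g0) two_ne_zero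
  have g1 := hN _ lo _ d0 s0 (inv x hx)
  have aZ := hL.2.2.1.analyticOnNhd (rc_op _ _ _ _) x hx
  have ag := hM.ang.analyticOnNhd (isOpen_lt continuous_im continuous_const) _ lo
  have D1 : HasDerivAt (fun z => E.g (Z z)) (deriv E.g (Z x) * deriv Z x) x :=
    ag.differentiableAt.hasDerivAt.comp x aZ.differentiableAt.hasDerivAt
  have D2 := (D1.const_mul W).pow 3
  have D3 := (((analyticAt_const (v := W)).mul aZ.deriv).mul (ag.comp aZ)).div_const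
    (c := 2) |>.differentiableAt.hasDerivAt
  have D4 := ((dSS (W * deriv Z x * E.g (Z x) / 2)).comp x D3).const_mul 24
  have := D2.unique (D4.congr_of_eventuallyEq
    (Filter.eventually_of_mem ((rc_op _ _ _ _).mem_nhds hx) inv))
  rw [s0] at this
  have Z0 : deriv Z x ≠ 0 := right_ne_zero_of_mul v0
  simp [W0, g0, g1, Z0] at this

end Cont

theorem half (hO : S_OM) (hS : S_SG) (_hR : S_REG) (hC : S_CONT) : S_HALF := by
  intro E Y W T Z hM hN hL x hx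
  suffices h : (W, x) ∈ E.Om from ⟨h, (loc hO hM hL hx h).eq_of_nhds⟩
  obtain ⟨o1, o2, o3, o4⟩ := hO E hM.ok
  by_contra hn
  have b01 := hM.ok.lt
  have base : ∀ t, E.b₀ < t → t < E.b₁ → (W, (⟨x.re, t⟩ : ℂ)) ∈ E.Om := fun t h1 h2 =>
    o3 (a := (W, ⟨x.re, t⟩)) ⟨hL.1, hx.1, hx.2.1, h1, h2⟩
  have ct : Continuous fun t : ℝ => (⟨x.re, t⟩ : ℂ) := by
    have : (fun t : ℝ => (⟨x.re, t⟩ : ℂ)) = fun t : ℝ => (x.re : ℂ) + t * I := by
      ext t
      apply Complex.ext <;> simp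
    rw [this]
    fun_prop
  have cp : IsCompact (Icc E.b₁ x.im ∩ {t : ℝ | (W, (⟨x.re, t⟩ : ℂ)) ∈ E.Om}ᶜ) :=
    isCompact_Icc.inter_right ((slice o1 W).preimage ct).isClosed_compl
  obtain ⟨t, ⟨⟨t1, t2⟩, t3⟩, t4⟩ := cp.exists_isLeast
    ⟨x.im, ⟨not_lt.1 fun h => hn (base x.im hx.2.2.1 h), le_rfl⟩, hn⟩
  have low : ∀ s, E.b₀ < s → s < t → (W, (⟨x.re, s⟩ : ℂ)) ∈ E.Om := fun s h1 h2 => by
    by_contra h
    exact (t4 ⟨⟨not_lt.1 fun k => h (base s h1 k), by linarith⟩, h⟩).not_gt h2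
  have hx₀ : (⟨x.re, t⟩ : ℂ) ∈ Rc E.α E.β E.b₀ T :=
    ⟨hx.1, hx.2.1, by simp only; linarith, t2.trans_lt hx.2.2.2⟩
  obtain ⟨r, r0, η, η0, H⟩ := hC E Y W _ _ hM (Cont.reg hS hM.ok hN hL hx₀)
  have aZ := hL.2.2.1.analyticOnNhd (rc_op _ _ _ _) _ hx₀
  have c1 : ∀ᶠ z in 𝓝 (⟨x.re, t⟩ : ℂ), ‖Z z - Z ⟨x.re, t⟩‖ < η := by
    simpa only [dist_eq_norm] using Metric.tendsto_nhds.1 aZ.continuousAt η η0
  have c2 : ∀ᶠ z in 𝓝 (⟨x.re, t⟩ : ℂ), ‖W * deriv Z z - W * deriv Z ⟨x.re, t⟩‖ < η := by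
    simpa only [dist_eq_norm] using
      Metric.tendsto_nhds.1 (aZ.deriv.continuousAt.tendsto.const_mul W) η η0
  have c3 := (ct.tendsto t).eventually (c1.and (c2.and ((rc_op _ _ _ _).mem_nhds hx₀)))
  have c4 : ∀ᶠ s in 𝓝 t, t - r < s := lt_mem_nhds (by linarith)
  obtain ⟨s, ⟨⟨s1, s2, s3⟩, s4⟩, s5⟩ :=
    (((c3.and c4).filter_mono (nhdsWithin_le_nhds (s := Iio t))).and self_mem_nhdsWithin).exists
  have hs := low s s3.2.2.1 s5
  obtain ⟨e, e0, he⟩ := Metric.isOpen_iff.1 (slice o1 W) _ hs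
  have m0 : 0 < min e r := lt_min e0 r0
  have m1 := min_le_left e r
  have m2 := min_le_right e r
  have ev := loc hO hM hL s3 hs
  refine t3 (H (x.re - min e r / 4) (x.re + min e r / 4) (s - min e r / 4) (s + min e r / 4)
    (by linarith) (by linarith) (fun z hz => he ?_) ⟨x.re, s⟩
    ⟨by simp only; linarith, by simp only; linarith, by simp only; linarith,
      by simp only; linarith⟩ ?_ ?_ ⟨x.re, t⟩
    ⟨by simp only; linarith, by simp only; linarith, by simp only; linarith,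
      by simp only; linarith⟩)
  · obtain ⟨k1, k2, k3, k4⟩ := hz
    have := nrm (x := z) (y := ⟨x.re, s⟩) (p := min e r / 4) (q := min e r / 4)
      (abs_le.2 ⟨by simp only; linarith, by simp only; linarith⟩)
      (abs_le.2 ⟨by simp only; linarith, by simp only; linarith⟩)
    rw [mem_ball]
    linarith
  · rw [show Y (W, ⟨x.re, s⟩) = Z ⟨x.re, s⟩ from ev.eq_of_nhds]
    exact s1
  · rw [show vv Y (W, ⟨x.re, s⟩) = W * deriv Z ⟨x.re, s⟩ from congrArg (W * ·) ev.deriv_eq]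
    exact s2

end Vale.Agent.P097F.D
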