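import Vale.Agent.P097F.D.Defs

/-!
# P097F.D: countably many exceptional steps; off a countable set the obstacles stay level
-/

set_option linter.all false

noncomputable section

namespace Vale.Agent.P097F.D

open Set Metric Filter Topology Complex Vale.Agent.P097D

/-- a set all of whose points are isolated is countable -/
theorem lev_count {α : Type*} [TopologicalSpace α] [SecondCountableTopology α] (S : Set α)
    (h : ∀ x ∈ S, ∀ᶠ y in 𝓝[≠] x, y ∉ S) : S.Countable := by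
  refine (HereditarilyLindelofSpace.isLindelof S).countable_of_isDiscrete ?_
  rw [isDiscrete_iff_nhdsNE]
  intro x hx
  rw [inf_principal_eq_bot]
  exact h x hx

theorem lev_isOpen_Lo (T : ℝ) : IsOpen (Lo T) := isOpen_lt Complex.continuous_im continuous_const

theorem lev_convex_Lo (T : ℝ) : Convex ℝ (Lo T) := convex_halfSpace_im_lt T

/-- the critical values are countable -/
theorem lev_crit (g : ℂ → ℂ) (hg : DifferentiableOn ℂ g (Lo 0)) :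
    (g '' {y | y ∈ Lo 0 ∧ deriv g y = 0}).Countable := by
  have ho := lev_isOpen_Lo 0
  have ha : AnalyticOnNhd ℂ (deriv g) (Lo 0) := (hg.analyticOnNhd ho).deriv
  by_cases h0 : EqOn (deriv g) 0 (Lo 0)
  · refine Set.Subsingleton.countable ?_
    rintro _ ⟨y, hy, rfl⟩ _ ⟨y', hy', rfl⟩
    exact ho.is_const_of_deriv_eq_zero (lev_convex_Lo 0).isPreconnected hg h0 hy.1 hy'.1
  · refine Set.Countable.image (lev_count _ fun x hx => ?_) g
    rcases (ha x hx.1).eventually_eq_zero_or_eventually_ne_zero with h | h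
    · exact absurd (ha.eqOn_zero_of_preconnected_of_eventuallyEq_zero
        (lev_convex_Lo 0).isPreconnected hx.1 h) h0
    · exact h.mono fun y hy hy' => hy hy'.2

theorem lev_cube (c s : ℂ) (hs : s ≠ 0) : {W : ℂ | (W * c) ^ 3 = s}.Countable := by
  by_cases hc : c = 0
  · refine Set.Subsingleton.countable fun W hW => ?_
    exact absurd (by simpa [hc] using (show (W * c) ^ 3 = s from hW).symm) hs
  · refine lev_count _ fun x hx => ?_
    have ha : AnalyticOnNhd ℂ (fun W : ℂ => (W * c) ^ 3 - s) univ := fun W _ => by fun_prop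
    rcases (ha x trivial).eventually_eq_zero_or_eventually_ne_zero with h | h
    · have := ha.eqOn_zero_of_preconnected_of_eventuallyEq_zero isPreconnected_univ
        (mem_univ x) h (mem_univ 0)
      exact absurd (by simpa using this) hs
    · exact h.mono fun y hy hy' => hy (sub_eq_zero.2 hy')

theorem nex : S_NEX := by
  intro g hg
  have hc := lev_crit g hg
  have hd : {d : ℂ | d ≠ 0 ∧ sin d = 0}.Countable := by
    refine (countable_range fun k : ℤ => (k : ℂ) * Real.pi).mono ?_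
    rintro d ⟨-, hd⟩
    obtain ⟨k, hk⟩ := Complex.sin_eq_zero_iff.1 hd
    exact ⟨k, hk.symm⟩
  have hS : ∀ d ∈ {d : ℂ | d ≠ 0 ∧ sin d = 0}, 24 * SS d ≠ 0 := by
    rintro d ⟨h0, h1⟩
    have h2 : cos d ≠ 0 := by
      intro h
      have := Complex.sin_sq_add_cos_sq d
      rw [h, h1] at this
      simp at this
    unfold SS
    rw [h1]
    simp [h0, h2]
  refine (hc.biUnion fun c _ => hd.biUnion fun d hd' => lev_cube c _ (hS d hd')).mono ?_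
  intro W hW
  simp only [NE, mem_setOf_eq, not_forall, not_not] at hW
  obtain ⟨y, hy, d, h0, h1, h2, h3⟩ := hW
  simp only [mem_iUnion]
  exact ⟨g y, ⟨y, ⟨hy, h3⟩, rfl⟩, d, ⟨h0, h1⟩, h2⟩

theorem lev_ch {g : ℂ → ℂ} {V V' : Set ℂ} {r : ℝ} {Φ Δ : ℂ × ℂ → ℂ} (h : Ch g V r Φ Δ)
    (hV : V' ⊆ V) : Ch g V' r Φ Δ := by
  have hs : V' ×ˢ ball (0 : ℂ) r ⊆ V ×ˢ ball 0 r := prod_mono hV Subset.rfl
  exact ⟨h.anΦ.mono hs, h.anΔ.mono hs, fun q hq => h.lo q (hs hq), fun q hq => h.inv q (hs hq),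
    fun q hq => h.ode q (hs hq),
    h.ty.imp (fun a W hW => a W (hV hW)) (fun a W hW => a W (hV hW))⟩

theorem lev_shrink {E : Dat} {Y : ℂ × ℂ → ℂ} {W₀ : ℂ} {T a₁ a₂ σ σ' ρ : ℝ} {n : ℕ}
    {X : Fin n → ℂ → ℂ} {Φ Δ : Fin n → ℂ × ℂ → ℂ} (h : Obs E Y W₀ T a₁ a₂ σ ρ n X Φ Δ)
    (h0 : 0 < σ') (h1 : σ' ≤ σ) : Obs E Y W₀ T a₁ a₂ σ' ρ n X Φ Δ := by
  have hs : ball W₀ σ' ⊆ ball W₀ σ := ball_subset_ball h1
  refine ⟨h0, h.ρ0, hs.trans h.sub, h.lim, h.top, h.sep, fun c => ?_,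
    fun W hW => h.om W (hs hW)⟩
  have o := h.one c
  exact ⟨o.an.mono hs, o.at₀, fun W hW => o.near W (hs hW), fun W hW => o.om W (hs hW),
    lev_ch o.ch hs, fun W hW => o.loc W (hs hW)⟩

theorem lev_isOpen_Rc (a b s t : ℝ) : IsOpen (Rc a b s t) :=
  (isOpen_lt continuous_const Complex.continuous_re).inter
    ((isOpen_lt Complex.continuous_re continuous_const).inter
      ((isOpen_lt continuous_const Complex.continuous_im).inter
        (isOpen_lt Complex.continuous_im continuous_const)))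

/-- the obstacle stays in its square -/
theorem lev_mem {E : Dat} {Y : ℂ × ℂ → ℂ} {W₀ x₀ : ℂ} {σ ρ : ℝ} {X : ℂ → ℂ}
    {Φ Δ : ℂ × ℂ → ℂ} (h : One E Y W₀ x₀ σ ρ X Φ Δ) {W : ℂ} (hW : W ∈ ball W₀ σ) :
    |(X W).re - x₀.re| < ρ / 8 ∧ |(X W).im - x₀.im| < ρ / 8 := by
  have := h.near W hW
  refine ⟨lt_of_le_of_lt ?_ this, lt_of_le_of_lt ?_ this⟩
  · simpa using Complex.abs_re_le_norm (X W - x₀)
  · simpa using Complex.abs_im_le_norm (X W - x₀)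

theorem lev_rc {E : Dat} {Y : ℂ × ℂ → ℂ} {W₀ x₀ : ℂ} {σ ρ : ℝ} {X : ℂ → ℂ}
    {Φ Δ : ℂ × ℂ → ℂ} (h : One E Y W₀ x₀ σ ρ X Φ Δ) (hρ : 0 < ρ) (hb : E.b₀ ≤ x₀.im - ρ)
    {W : ℂ} (hW : W ∈ ball W₀ σ) :
    X W ∈ Rc (x₀.re - ρ) (x₀.re + ρ) E.b₀ (x₀.im + ρ) := by
  obtain ⟨h1, h2⟩ := lev_mem h hW
  rw [abs_lt] at h1 h2
  exact ⟨by linarith [h1.1], by linarith [h1.2], by linarith [h2.1], by linarith [h2.2]⟩

theorem lev_not {E : Dat} {Y : ℂ × ℂ → ℂ} {W₀ x₀ : ℂ} {σ ρ : ℝ} {X : ℂ → ℂ}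
    {Φ Δ : ℂ × ℂ → ℂ} (h : One E Y W₀ x₀ σ ρ X Φ Δ) (hρ : 0 < ρ) (hb : E.b₀ ≤ x₀.im - ρ)
    {W : ℂ} (hW : W ∈ ball W₀ σ) : (W, X W) ∉ E.Om := fun hm =>
  (h.om W hW _ (lev_rc h hρ hb hW)).1 hm ⟨rfl, le_rfl⟩

/-- one obstacle lies on the slit of the other one -/
theorem lev_le {E : Dat} {Y : ℂ × ℂ → ℂ} {W₀ x₀ W₁ x₁ u : ℂ} {σ ρ σ' ρ' : ℝ} {X X' : ℂ → ℂ}
    {Φ Δ Φ' Δ' : ℂ × ℂ → ℂ} (h : One E Y W₀ x₀ σ ρ X Φ Δ) (hρ : 0 < ρ)
    (hb : E.b₀ ≤ x₀.im - ρ) (h' : One E Y W₁ x₁ σ' ρ' X' Φ' Δ') (hρ' : 0 < ρ')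
    (hb' : E.b₀ ≤ x₁.im - ρ') (hu : u ∈ ball W₀ σ) (hu' : u ∈ ball W₁ σ') (he : X u = X' u) :
    ∀ᶠ W in 𝓝 u, (X W).im ≤ (X' W).im := by
  have h1 : ∀ᶠ W in 𝓝 u, X' W ∈ Rc (x₀.re - ρ) (x₀.re + ρ) E.b₀ (x₀.im + ρ) :=
    (h'.an u hu').continuousAt.eventually
      ((lev_isOpen_Rc _ _ _ _).mem_nhds (he ▸ lev_rc h hρ hb hu))
  filter_upwards [h1, isOpen_ball.mem_nhds hu, isOpen_ball.mem_nhds hu'] with W a b c
  by_contra hn
  exact lev_not h' hρ' hb' c ((h.om W b _ a).2 fun hs => hn hs.2)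

/-- the alternative for the heights of two obstacles -/
theorem lev_alt {f : ℂ → ℂ} {W₀ : ℝ} (hf : AnalyticAt ℂ f W₀) :
    ∀ᶠ u : ℝ in 𝓝[≠] W₀, (f u).im = 0 → ∀ᶠ v : ℝ in 𝓝 u, (f v).im = 0 := by
  have h1 : AnalyticAt ℝ (fun u : ℝ => (f u).im) W₀ :=
    (Complex.imCLM.analyticAt _).comp
      (AnalyticAt.comp (f := fun u : ℝ => (u : ℂ)) (hf.restrictScalars (𝕜 := ℝ))
        (Complex.ofRealCLM.analyticAt W₀))
  rcases h1.eventually_eq_zero_or_eventually_ne_zero with h | h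
  · exact (h.eventually_nhds.filter_mono nhdsWithin_le_nhds).mono fun u hu _ => hu
  · exact h.mono fun u hu h0 => absurd h0 hu

theorem lev (hS : S_STR) : S_LEV := by
  intro E Y T a₁ a₂ hM hZ h1 h2 h3
  refine ⟨{W : ℝ | Cp E Y W (T W) ∧
    ¬ ∃ σ ρ n X Φ Δ, Obs E Y W (T W) a₁ a₂ σ ρ n X Φ Δ ∧ Lev W σ X}, ?_,
    fun W hW hC => by by_contra hn; exact hW ⟨hC, hn⟩⟩
  refine lev_count _ ?_
  rintro W₀ ⟨hC, hN⟩
  obtain ⟨σ, ρ, n, X, Φ, Δ, hO⟩ := hS E Y W₀ _ a₁ a₂ hM hZ hC h1 h2 h3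
  have hlt := hM.ok.lt
  have hc₀ : Nonempty (Fin n) := by
    by_contra hn
    exact hN ⟨σ, ρ, n, X, Φ, Δ, hO, fun c => absurd ⟨c⟩ hn⟩
  obtain ⟨c₀⟩ := hc₀
  have hb : ∀ c, E.b₀ ≤ (X c W₀).im - ρ := fun c => by
    rw [(hO.top c).1]; linarith [hO.lim.2.2]
  have hA : ∀ᶠ u : ℝ in 𝓝[≠] W₀, ∀ c c', (X c u - X c' u).im = 0 →
      ∀ᶠ v : ℝ in 𝓝 u, (X c v - X c' v).im = 0 := by
    simp only [eventually_all]
    intro c c'
    exact lev_alt (f := fun W => X c W - X c' W)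
      (((hO.one c).an _ (mem_ball_self hO.σ0)).sub ((hO.one c').an _ (mem_ball_self hO.σ0)))
  have hB : ∀ᶠ u : ℝ in 𝓝[≠] W₀, (u : ℂ) ∈ ball (W₀ : ℂ) σ :=
    (Complex.continuous_ofReal.continuousAt.eventually
      (isOpen_ball.mem_nhds (mem_ball_self hO.σ0))).filter_mono nhdsWithin_le_nhds
  filter_upwards [hA, hB] with u hA hB
  rintro ⟨hC', hN'⟩
  obtain ⟨σ', ρ', n', X', Φ', Δ', hO'⟩ := hS E Y u _ a₁ a₂ hM hZ hC' h1 h2 h3
  have hb' : ∀ c, E.b₀ ≤ (X' c u).im - ρ' := fun c => by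
    rw [(hO'.top c).1]; linarith [hO'.lim.2.2]
  have hρ := hO.ρ0
  have hρ' := hO'.ρ0
  have hT : ∀ c, T u ≤ (X c u).im := fun c => by
    by_contra hn
    obtain ⟨m1, m2, m3, -⟩ := lev_rc (hO.one c) hρ (hb c) hB
    obtain ⟨-, t1, t2⟩ := hO.top c
    refine lev_not (hO.one c) hρ (hb c) hB (hC'.2.2.2.1 _ ⟨?_, ?_, m3, not_le.1 hn⟩)
    · linarith [hO.lim.1]
    · linarith [hO.lim.2.1]
  have hT' : T u < T W₀ + ρ := by
    have := (lev_rc (hO.one c₀) hρ (hb c₀) hB).2.2.2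
    rw [(hO.top c₀).1] at this
    exact (hT c₀).trans_lt this
  have hu' : (u : ℂ) ∈ ball (u : ℂ) σ' := mem_ball_self hO'.σ0
  have key : ∀ c', ∃ c, (X c u).im = T u ∧
      ∀ᶠ v : ℝ in 𝓝 u, (X' c' v).im = (X c v).im := by
    intro c'
    obtain ⟨t0, t1, t2⟩ := hO'.top c'
    have hm : X' c' u ∈ Rc (a₁ - ρ) (a₂ + ρ) E.b₀ (T W₀ + ρ) :=
      ⟨by linarith, by linarith, by linarith [hb' c'], by linarith⟩
    have hno := lev_not (hO'.one c') hρ' (hb' c') hu'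
    rw [hO.om u hB _ hm] at hno
    simp only [not_forall, not_not] at hno
    obtain ⟨c, hre, him⟩ := hno
    have hi : (X c u).im = T u := le_antisymm (t0 ▸ him) (hT c)
    have he : X c u = X' c' u := Complex.ext hre.symm (hi.trans t0.symm)
    refine ⟨c, hi, Complex.continuous_ofReal.continuousAt.eventually
      (p := fun W => (X' c' W).im = (X c W).im) ?_⟩
    filter_upwards [lev_le (hO.one c) hρ (hb c) (hO'.one c') hρ' (hb' c') hB hu' he,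
      lev_le (hO'.one c') hρ' (hb' c') (hO.one c) hρ (hb c) hu' hB he.symm] with W a b
    exact le_antisymm b a
  choose φ hφ hφ' using key
  have hall : ∀ᶠ v : ℝ in 𝓝 u, ∀ c c', (X' c v).im = (X' c' v).im := by
    simp only [eventually_all]
    intro c c'
    filter_upwards [hφ' c, hφ' c', hA (φ c) (φ c') (by rw [sub_im, hφ, hφ, sub_self])]
      with v a b d
    rw [sub_im, sub_eq_zero] at d
    rw [a, b, d]
  obtain ⟨e, he, hb2⟩ := Metric.eventually_nhds_iff.1 hall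
  refine hN' ⟨min e σ', ρ', n', X', Φ', Δ',
    lev_shrink hO' (lt_min he hO'.σ0) (min_le_right _ _), fun c c' v hv => hb2 ?_ c c'⟩
  have := (mem_ball.1 hv).trans_le (min_le_left _ _)
  rwa [Complex.dist_of_im_eq (by simp), ofReal_re, ofReal_re] at this

end Vale.Agent.P097F.D
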