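import Vale.Agent.P097F.D.Defs

/-!
# P097F.D: the maximal domain and the glued continuation
-/

set_option linter.all false

noncomputable section

namespace Vale.Agent.P097F.D

open Set Metric Filter Topology Complex Vale.Agent.P097D

theorem rc_open (a b s t : ℝ) : IsOpen (Rc a b s t) :=
  (isOpen_lt continuous_const continuous_re).inter ((isOpen_lt continuous_re continuous_const).inter
    ((isOpen_lt continuous_const continuous_im).inter (isOpen_lt continuous_im continuous_const)))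

theorem rc_convex (a b s t : ℝ) : Convex ℝ (Rc a b s t) :=
  (convex_halfSpace_re_gt a).inter ((convex_halfSpace_re_lt b).inter
    ((convex_halfSpace_im_gt s).inter (convex_halfSpace_im_lt t)))

theorem slice_congr {f f' : ℂ × ℂ → ℂ} {p : ℂ × ℂ} (h : f =ᶠ[𝓝 p] f') :
    (fun x => f (p.1, x)) =ᶠ[𝓝 p.2] fun x => f' (p.1, x) :=
  (Continuous.tendsto' (f := fun x : ℂ => (p.1, x)) (by fun_prop) p.2 p rfl).eventually h

theorem dx_congr {f f' : ℂ × ℂ → ℂ} {p : ℂ × ℂ} (h : f =ᶠ[𝓝 p] f') : dx f p = dx f' p :=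
  (slice_congr h).deriv_eq

theorem vv_congr {f f' : ℂ × ℂ → ℂ} {p : ℂ × ℂ} (h : f =ᶠ[𝓝 p] f') : vv f p = vv f' p := by
  unfold vv
  rw [dx_congr h]

theorem de_congr (g : ℂ → ℂ) {f f' : ℂ × ℂ → ℂ} {p : ℂ × ℂ} (h : f =ᶠ[𝓝 p] f') :
    de g f p = de g f' p := by
  unfold de
  rw [vv_congr h, h.eq_of_nhds]

theorem Fam.mono {g : ℂ → ℂ} {f : ℂ × ℂ → ℂ} {O O' : Set (ℂ × ℂ)} (h : Fam g f O) (e : O' ⊆ O) :
    Fam g f O' :=
  ⟨h.an.mono e, fun p hp => h.lo p (e hp), fun p hp => h.law p (e hp)⟩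

/-- being a family is a local property -/
theorem Fam.of_loc {g : ℂ → ℂ} {f : ℂ × ℂ → ℂ} {O : Set (ℂ × ℂ)}
    (h : ∀ p ∈ O, ∃ f' O', Fam g f' O' ∧ p ∈ O' ∧ f =ᶠ[𝓝 p] f') : Fam g f O := by
  refine ⟨fun p hp => ?_, fun p hp => ?_, fun p hp => ?_⟩ <;>
    obtain ⟨f', O', k, m, e⟩ := h p hp
  · exact (k.an p m).congr e.symm
  · rw [e.eq_of_nhds]; exact k.lo p m
  · rw [vv_congr e, e.eq_of_nhds]; exact k.law p m

theorem Fam.congr {g : ℂ → ℂ} {f f' : ℂ × ℂ → ℂ} {O : Set (ℂ × ℂ)} (h : Fam g f O)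
    (hO : IsOpen O) (e : ∀ p ∈ O, f' p = f p) : Fam g f' O :=
  Fam.of_loc fun p hp => ⟨f, O, h, hp, eventually_of_mem (hO.mem_nhds hp) e⟩

namespace Dat

variable (E : Dat)

theorem col_open (p : ℂ × ℂ) (e : ℝ) : IsOpen (E.Col p e) := isOpen_ball.prod (rc_open _ _ _ _)

theorem self_col {p : ℂ × ℂ} {e : ℝ} (h : E.b₀ < p.2.im) (e0 : 0 < e) : p ∈ E.Col p e :=
  ⟨mem_ball_self e0, by linarith, by linarith, h, by linarith⟩

/-- a witness of membership in the maximal domain -/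
def Wit (p : ℂ × ℂ) (e : ℝ) (f : ℂ × ℂ → ℂ) : Prop := ball p.1 e ⊆ E.U ∧
  E.α ≤ p.2.re - e ∧ p.2.re + e ≤ E.β ∧ Fam E.g f (E.Col p e) ∧
    ∀ q ∈ E.Col p e, q.2.im < E.b₁ → f q = E.A q

theorem om_wit {p : ℂ × ℂ} (h : p ∈ E.Om) : ∃ e f, 0 < e ∧ E.Wit p e f :=
  let ⟨_, e, e0, h1, h2, h3, f, h4, h5⟩ := h
  ⟨e, f, e0, h1, h2, h3, h4, h5⟩

variable {E}

theorem Wit.sub {p : ℂ × ℂ} {e : ℝ} {f : ℂ × ℂ → ℂ} (h : E.Wit p e f) : E.Col p e ⊆ E.Om := by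
  rintro q ⟨q1, q2, q3, q4, q5⟩
  obtain ⟨h1, h2, h3, h4, h5⟩ := h
  rw [mem_ball] at q1
  obtain ⟨e', e0, a1, a2, a3, a4⟩ : ∃ e' > 0, e' ≤ e - dist q.1 p.1 ∧ e' ≤ q.2.re - (p.2.re - e) ∧
      e' ≤ p.2.re + e - q.2.re ∧ e' ≤ p.2.im + e - q.2.im :=
    ⟨min (min (e - dist q.1 p.1) (q.2.re - (p.2.re - e)))
      (min (p.2.re + e - q.2.re) (p.2.im + e - q.2.im)),
      lt_min (lt_min (by linarith) (by linarith)) (lt_min (by linarith) (by linarith)),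
      (min_le_left _ _).trans (min_le_left _ _), (min_le_left _ _).trans (min_le_right _ _),
      (min_le_right _ _).trans (min_le_left _ _), (min_le_right _ _).trans (min_le_right _ _)⟩
  have b : ball q.1 e' ⊆ ball p.1 e := ball_subset_ball' (by linarith)
  have s : E.Col q e' ⊆ E.Col p e := fun z ⟨z1, z2, z3, z4, z5⟩ =>
    ⟨b z1, by linarith, by linarith, z4, by linarith⟩
  exact ⟨q4, e', e0, b.trans h1, by linarith, by linarith, f, h4.mono s, fun z hz => h5 z (s hz)⟩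

theorem Wit.uniq (lt : E.b₀ < E.b₁) {p p' q : ℂ × ℂ} {e e' : ℝ} {f f' : ℂ × ℂ → ℂ}
    (h : E.Wit p e f) (h' : E.Wit p' e' f') (m : q ∈ E.Col p e) (m' : q ∈ E.Col p' e') :
    f q = f' q := by
  have cv := (rc_convex (p.2.re - e) (p.2.re + e) E.b₀ (p.2.im + e)).inter
    (rc_convex (p'.2.re - e') (p'.2.re + e') E.b₀ (p'.2.im + e'))
  have op := (rc_open (p.2.re - e) (p.2.re + e) E.b₀ (p.2.im + e)).inter
    (rc_open (p'.2.re - e') (p'.2.re + e') E.b₀ (p'.2.im + e'))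
  have b0 : E.b₀ < q.2.im := m.2.2.2.1
  obtain ⟨s, s1, s2⟩ := exists_between (lt_min lt b0)
  have s3 := s2.trans_le (min_le_left _ _)
  have s4 := s2.trans_le (min_le_right _ _)
  have x0 : (⟨q.2.re, s⟩ : ℂ) ∈ Rc (p.2.re - e) (p.2.re + e) E.b₀ (p.2.im + e) ∩
      Rc (p'.2.re - e') (p'.2.re + e') E.b₀ (p'.2.im + e') :=
    ⟨⟨m.2.1, m.2.2.1, s1, s4.trans m.2.2.2.2⟩, m'.2.1, m'.2.2.1, s1, s4.trans m'.2.2.2.2⟩
  refine AnalyticOnNhd.eqOn_of_preconnected_of_eventuallyEq (𝕜 := ℂ)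
    (f := fun x => f (q.1, x)) (g := fun x => f' (q.1, x))
    (fun x hx => (h.2.2.2.1.an (q.1, x) ⟨m.1, hx.1⟩).curry_right)
    (fun x hx => (h'.2.2.2.1.an (q.1, x) ⟨m'.1, hx.2⟩).curry_right) cv.isPreconnected x0 ?_
    (show q.2 ∈ _ from ⟨m.2, m'.2⟩)
  filter_upwards [op.mem_nhds x0,
    (isOpen_lt continuous_im continuous_const).mem_nhds (show (⟨q.2.re, s⟩ : ℂ).im < E.b₁ from s3)]
    with x hx hb
  exact (h.2.2.2.2 (q.1, x) ⟨m.1, hx.1⟩ hb).trans (h'.2.2.2.2 (q.1, x) ⟨m'.1, hx.2⟩ hb).symm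

end Dat

theorem om : S_OM := by
  intro E k
  refine ⟨isOpen_iff_mem_nhds.2 fun p hp => ?_, fun p hp x x1 x2 x3 => ?_, ?_, fun p hp => ?_⟩
  · obtain ⟨e, f, e0, w⟩ := E.om_wit hp
    exact mem_of_superset ((E.col_open p e).mem_nhds (E.self_col hp.1 e0)) w.sub
  · obtain ⟨e, f, e0, w⟩ := E.om_wit hp
    exact w.sub ⟨mem_ball_self e0, by show _ < x.re; linarith, by show x.re < _; linarith, x2,
      by show x.im < _; linarith⟩
  · rintro p ⟨p1, p2, p3, p4, p5⟩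
    obtain ⟨r, r0, hr⟩ := Metric.isOpen_iff.1 k.op p.1 p1
    obtain ⟨e, e0, a1, a2, a3, a4⟩ : ∃ e > 0, e ≤ r ∧ e ≤ p.2.re - E.α ∧
        e ≤ E.β - p.2.re ∧ e ≤ E.b₁ - p.2.im :=
      ⟨min (min r (p.2.re - E.α)) (min (E.β - p.2.re) (E.b₁ - p.2.im)),
        lt_min (lt_min r0 (by linarith)) (lt_min (by linarith) (by linarith)),
        (min_le_left _ _).trans (min_le_left _ _), (min_le_left _ _).trans (min_le_right _ _),
        (min_le_right _ _).trans (min_le_left _ _), (min_le_right _ _).trans (min_le_right _ _)⟩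
    have b : ball p.1 e ⊆ E.U := (ball_subset_ball a1).trans hr
    exact ⟨p4, e, e0, b, by linarith, by linarith, E.A, k.fam.mono fun z ⟨z1, z2, z3, z4, z5⟩ =>
      ⟨b z1, by linarith, by linarith, z4, by linarith⟩, fun _ _ _ => rfl⟩
  · obtain ⟨e, f, e0, w⟩ := E.om_wit hp
    exact ⟨w.1 (mem_ball_self e0), by linarith [w.2.1], by linarith [w.2.2.1], hp.1⟩

theorem glue : S_GLUE := by
  intro E k
  have : ∀ p : ℂ × ℂ, ∃ (e : ℝ) (f : ℂ × ℂ → ℂ), p ∈ E.Om → 0 < e ∧ E.Wit p e f := fun p => by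
    by_cases hp : p ∈ E.Om
    · obtain ⟨e, f, h⟩ := E.om_wit hp
      exact ⟨e, f, fun _ => h⟩
    · exact ⟨0, 0, fun h => (hp h).elim⟩
  choose e f h using this
  have me : ∀ p ∈ E.Om, p ∈ E.Col p (e p) := fun p hp => E.self_col hp.1 (h p hp).1
  refine ⟨fun p => f p p, k, Fam.of_loc fun p hp => ⟨f p, _, (h p hp).2.2.2.2.1, me p hp, ?_⟩,
    fun p hp b => (h p hp).2.2.2.2.2 p (me p hp) b⟩
  filter_upwards [(E.col_open p (e p)).mem_nhds (me p hp)] with q hq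
  have mq := (h p hp).2.sub hq
  exact Dat.Wit.uniq k.lt (h q mq).2 (h p hp).2 (me q mq) hq

end Vale.Agent.P097F.D
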