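import Vale.Agent.P097F.D.Defs
import Vale.Agent.P281.MF.Hol

/-!
# P097F.D: primitives with a holomorphic parameter
-/

set_option linter.all false

noncomputable section

namespace Vale.Agent.P097F.D

open Set Metric Filter Topology Complex MeasureTheory

namespace PrimA

/-- the contraction of the second variable -/
def cA (y₀ : ℂ) (u : ℝ) (q : ℂ × ℂ) : ℂ × ℂ := (q.1, y₀ + u * (q.2 - y₀))

/-- its linear part -/
def cL (u : ℝ) : ℂ × ℂ →L[ℂ] ℂ × ℂ :=
  (ContinuousLinearMap.fst ℂ ℂ ℂ).prod 0 +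
    (u : ℂ) • (0 : ℂ × ℂ →L[ℂ] ℂ).prod (ContinuousLinearMap.snd ℂ ℂ ℂ)

theorem cL_apply (u : ℝ) (q : ℂ × ℂ) : cL u q = (q.1, u * q.2) := by simp [cL]

theorem cL_cont : Continuous cL := by unfold cL; fun_prop

theorem cA_cont (y₀ : ℂ) (q : ℂ × ℂ) : Continuous fun u => cA y₀ u q := by unfold cA; fun_prop

theorem cA_der (y₀ : ℂ) (u : ℝ) (q : ℂ × ℂ) : HasFDerivAt (cA y₀ u) (cL u) q := by
  have e : cA y₀ u = fun q => cL u q + (0, y₀ - u * y₀) := funext fun q => by
    rw [cL_apply, cA]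
    ext
    · simp
    · simp
      ring
  rw [e]
  exact (cL u).hasFDerivAt.add_const _

theorem cL_le {u : ℝ} (hu : u ∈ Icc (0 : ℝ) 1) : ‖cL u‖ ≤ 1 :=
  ContinuousLinearMap.opNorm_le_bound _ zero_le_one fun q => by
    rw [cL_apply, one_mul, Prod.norm_def, Prod.norm_def]
    refine max_le_max le_rfl ?_
    rw [norm_mul, norm_real, Real.norm_eq_abs, abs_of_nonneg hu.1]
    exact mul_le_of_le_one_left (norm_nonneg _) hu.2

theorem seg {y₀ y : ℂ} {r u : ℝ} (hu : u ∈ Icc (0 : ℝ) 1) (hy : y ∈ ball y₀ r) :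
    y₀ + u * (y - y₀) ∈ ball y₀ r := by
  rw [mem_ball, dist_eq_norm] at hy ⊢
  rw [add_sub_cancel_left, norm_mul, norm_real, Real.norm_eq_abs, abs_of_nonneg hu.1]
  exact (mul_le_of_le_one_left (norm_nonneg _) hu.2).trans_lt hy

theorem cA_mem {W₀ y₀ : ℂ} {r u : ℝ} {q : ℂ × ℂ} (hu : u ∈ Icc (0 : ℝ) 1)
    (hq : q ∈ ball (W₀, y₀) r) : cA y₀ u q ∈ ball (W₀, y₀) r := by
  rw [← ball_prod_same] at hq ⊢
  exact ⟨hq.1, seg hu hq.2⟩

end PrimA

open PrimA in
theorem prim : S_PRIM := by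
  intro k W₀ y₀ m hk
  obtain ⟨R, R0, hR⟩ := Metric.eventually_nhds_iff_ball.1 hk.eventually_analyticAt
  obtain ⟨r, r0, hr⟩ : ∃ r > 0, closedBall (W₀, y₀) r ⊆ ball (W₀, y₀) R :=
    ⟨R / 2, by positivity, closedBall_subset_ball (by linarith)⟩
  have ak : AnalyticOnNhd ℂ k (closedBall (W₀, y₀) r) := fun q hq => hR q (hr hq)
  obtain ⟨M, hM⟩ := (isCompact_closedBall (W₀, y₀) r).exists_bound_of_continuousOn
    ak.fderiv.continuousOn
  have ak' : AnalyticOnNhd ℂ k (ball (W₀, y₀) r) := ak.mono ball_subset_closedBall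
  let F : ℂ × ℂ → ℝ → ℂ := fun q u => (u : ℂ) ^ m * k (cA y₀ u q)
  let F' : ℂ × ℂ → ℝ → ℂ × ℂ →L[ℂ] ℂ := fun q u =>
    (u : ℂ) ^ m • (fderiv ℂ k (cA y₀ u q)).comp (cL u)
  have cF : ∀ q ∈ ball (W₀, y₀) r, ContinuousOn (F q) (Icc 0 1) := fun q hq =>
    (by fun_prop : Continuous fun u : ℝ => (u : ℂ) ^ m).continuousOn.mul
      (ak'.continuousOn.comp (cA_cont y₀ q).continuousOn fun u hu => cA_mem hu hq)
  have cF' : ∀ q ∈ ball (W₀, y₀) r, ContinuousOn (F' q) (Icc 0 1) := fun q hq =>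
    (by fun_prop : Continuous fun u : ℝ => (u : ℂ) ^ m).continuousOn.smul
      ((ak'.fderiv.continuousOn.comp (cA_cont y₀ q).continuousOn
        fun u hu => cA_mem hu hq).clm_comp cL_cont.continuousOn)
  have sub : Set.uIoc (0 : ℝ) 1 ⊆ Icc 0 1 := by
    rw [uIoc_of_le zero_le_one]
    exact Ioc_subset_Icc_self
  have iF : ∀ q ∈ ball (W₀, y₀) r, IntervalIntegrable (F q) volume 0 1 := fun q hq =>
    (cF q hq).intervalIntegrable_of_Icc zero_le_one
  have dh : DifferentiableOn ℂ (fun q => ∫ u in (0 : ℝ)..1, F q u) (ball (W₀, y₀) r) := by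
    intro q hq
    refine (intervalIntegral.hasFDerivAt_integral_of_dominated_of_fderiv_le (F' := F')
      (bound := fun _ => M) (isOpen_ball.mem_nhds hq)
      (mem_of_superset (isOpen_ball.mem_nhds hq) fun x hx =>
        ((cF x hx).mono sub).aestronglyMeasurable measurableSet_uIoc) (iF q hq)
      (((cF' q hq).mono sub).aestronglyMeasurable measurableSet_uIoc)
      (Eventually.of_forall fun u hu x hx => ?_) intervalIntegrable_const
      (Eventually.of_forall fun u hu x hx => ?_)).differentiableAt.differentiableWithinAt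
    · have hu' := sub hu
      have h1 := hM _ (ball_subset_closedBall (cA_mem hu' hx))
      have h2 : ‖(u : ℂ) ^ m‖ ≤ 1 := by
        rw [norm_pow, norm_real, Real.norm_eq_abs, abs_of_nonneg hu'.1]
        exact pow_le_one₀ hu'.1 hu'.2
      have h3 : ‖(fderiv ℂ k (cA y₀ u x)).comp (cL u)‖ ≤ M :=
        (ContinuousLinearMap.opNorm_comp_le _ _).trans
          ((mul_le_of_le_one_right (norm_nonneg _) (cL_le hu')).trans h1)
      have h4 : ‖F' x u‖ ≤ ‖(u : ℂ) ^ m‖ * ‖(fderiv ℂ k (cA y₀ u x)).comp (cL u)‖ :=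
        ContinuousLinearMap.opNorm_smul_le _ _
      exact h4.trans ((mul_le_of_le_one_left (norm_nonneg _) h2).trans h3)
    · exact ((ak' _ (cA_mem (sub hu) hx)).differentiableAt.hasFDerivAt.comp x
        (cA_der y₀ u x)).const_mul _
  refine ⟨fun q => ∫ u in (0 : ℝ)..1, F q u, P281.MF.analyticOnNhd_of_differentiableOn isOpen_ball
    dh _ (mem_ball_self r0), ?_, mem_of_superset (ball_mem_nhds _ r0) fun q hq => ?_⟩
  · have e : ∫ u in (0 : ℝ)..1, (u : ℂ) ^ m = 1 / (m + 1) := by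
      simp_rw [← Complex.ofReal_pow]
      rw [intervalIntegral.integral_ofReal, integral_pow]
      simp
    simp only [F, cA, sub_self, mul_zero, add_zero]
    rw [intervalIntegral.integral_mul_const, e]
    ring
  · have hq' := hq
    rw [← ball_prod_same] at hq'
    have mem : ∀ y ∈ ball y₀ r, (q.1, y) ∈ ball (W₀, y₀) r := fun y hy => by
      rw [← ball_prod_same]
      exact ⟨hq'.1, hy⟩
    have df : DifferentiableOn ℂ (fun y => (y - y₀) ^ m * k (q.1, y)) (ball y₀ r) := fun y hy =>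
      (((differentiableAt_id.sub_const y₀).pow m).mul ((ak' _ (mem y hy)).differentiableAt.comp y
        ((differentiableAt_const _).prodMk differentiableAt_id))).differentiableWithinAt
    obtain ⟨P, hP⟩ := df.isExactOn_ball
    refine ((hP q.2 hq'.2).sub_const (P y₀)).congr_of_eventuallyEq
      (mem_of_superset (isOpen_ball.mem_nhds hq'.2) fun y hy => ?_)
    have h1 : ∫ u in (0 : ℝ)..1, (y - y₀) ^ (m + 1) * F (q.1, y) u =
        P (y₀ + (1 : ℝ) * (y - y₀)) - P (y₀ + (0 : ℝ) * (y - y₀)) := by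
      refine intervalIntegral.integral_eq_sub_of_hasDerivAt
        (f := fun u : ℝ => P (y₀ + u * (y - y₀))) (fun u hu => ?_) ((iF _ (mem y hy)).const_mul _)
      rw [uIcc_of_le zero_le_one] at hu
      have h2 : HasDerivAt (fun z : ℂ => y₀ + z * (y - y₀)) (y - y₀) u := by
        simpa using ((hasDerivAt_id (u : ℂ)).mul_const (y - y₀)).const_add y₀
      refine (((hP _ (seg hu hy)).comp (u : ℂ) h2).comp_ofReal).congr_deriv ?_
      simp only [F, cA, add_sub_cancel_left, mul_pow]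
      ring
    rw [intervalIntegral.integral_const_mul] at h1
    show (y - y₀) ^ (m + 1) * ∫ u in (0 : ℝ)..1, F (q.1, y) u = P y - P y₀
    rw [h1]
    simp

end Vale.Agent.P097F.D
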