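import Vale.Agent.P097F.D.Defs

/-!
# P097F.D: states of a family are regular
-/

set_option linter.all false

noncomputable section

namespace Vale.Agent.P097F.D

open Set Metric Filter Topology Complex Vale.Agent.P097D

/-- the partial derivative in the second variable -/
theorem reg_snd {f : ℂ × ℂ → ℂ} {L : ℂ × ℂ →L[ℂ] ℂ} {p : ℂ × ℂ} (h : HasFDerivAt f L p) :
    HasDerivAt (fun x => f (p.1, x)) (L (0, 1)) p.2 := by
  have a : HasDerivAt (fun x : ℂ => (p.1, x)) ((0 : ℂ), (1 : ℂ)) p.2 :=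
    (hasDerivAt_const p.2 p.1).prodMk (hasDerivAt_id p.2)
  exact HasFDerivAt.comp_hasDerivAt (l := f) (f := fun x : ℂ => (p.1, x)) p.2 h a

theorem reg_dx {f : ℂ × ℂ → ℂ} {p : ℂ × ℂ} (h : AnalyticAt ℂ f p) :
    dx f p = fderiv ℂ f p (0, 1) := (reg_snd h.differentiableAt.hasFDerivAt).deriv

theorem reg_dx_an {f : ℂ × ℂ → ℂ} {p : ℂ × ℂ} (h : AnalyticAt ℂ f p) : AnalyticAt ℂ (dx f) p := by
  have a : AnalyticAt ℂ (fun q => fderiv ℂ f q (0, 1)) p :=
    ((ContinuousLinearMap.apply ℂ ℂ ((0 : ℂ), (1 : ℂ))).analyticAt _).comp h.fderiv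
  refine a.congr ?_
  filter_upwards [h.eventually_analyticAt] with q hq using (reg_dx hq).symm

theorem reg_vv_an {f : ℂ × ℂ → ℂ} {p : ℂ × ℂ} (h : AnalyticAt ℂ f p) : AnalyticAt ℂ (vv f) p :=
  analyticAt_fst.mul (reg_dx_an h)

theorem reg_lin (L : ℂ × ℂ →L[ℂ] ℂ) (a b : ℂ) : L (a, b) = a * L (1, 0) + b * L (0, 1) := by
  have e : ((a, b) : ℂ × ℂ) = a • ((1 : ℂ), (0 : ℂ)) + b • ((0 : ℂ), (1 : ℂ)) := by simp
  rw [e, map_add, map_smul, map_smul, smul_eq_mul, smul_eq_mul]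

theorem reg (h : S_SG) : S_REG := by
  intro g f O hg hO hF p hp hW
  obtain ⟨h1, -, h3, h4⟩ := h
  have af := hF.an p hp
  have av := reg_vv_an af
  have ag : AnalyticAt ℂ g (f p) :=
    hg.analyticAt ((isOpen_lt continuous_im continuous_const).mem_nhds (hF.lo p hp))
  have law : vv f p ^ 3 * sg (vv f p * g (f p) / 2) = p.1 ^ 3 := hF.law p hp
  have v0 : vv f p ≠ 0 := by
    intro e
    rw [e] at law
    exact pow_ne_zero 3 hW (by rw [← law]; ring)
  have ad : AnalyticAt ℂ (de g f) p := (av.mul (ag.comp af)).div_const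
  refine ⟨v0, ⟨hW, hF.lo p hp, law, (h4 _ _ v0).2 fun e => ?_⟩, av, ad, ?_⟩
  · have aK : AnalyticAt ℂ (fun s : ℂ × ℂ => s.2 ^ 3 * sg (s.2 * g s.1 / 2)) (f p, vv f p) := by
      have b1 : AnalyticAt ℂ (fun s : ℂ × ℂ => g s.1) (f p, vv f p) :=
        AnalyticAt.comp (g := g) (f := fun s : ℂ × ℂ => s.1) ag analyticAt_fst
      have b2 : AnalyticAt ℂ (fun s : ℂ × ℂ => s.2 * g s.1 / 2) (f p, vv f p) :=
        (analyticAt_snd.mul b1).div_const
      exact (analyticAt_snd.pow 3).mul (AnalyticAt.comp (g := sg) (h1 _ (mem_univ _)) b2)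
    have hK := aK.differentiableAt.hasFDerivAt
    generalize fderiv ℂ (fun s : ℂ × ℂ => s.2 ^ 3 * sg (s.2 * g s.1 / 2)) (f p, vv f p) = L at hK
    have L2 : L (0, 1) = 0 := by
      rw [← (reg_snd hK).deriv]
      exact e
    have c1 := HasFDerivAt.comp (f := fun q => (f q, vv f q)) p hK
      (af.differentiableAt.hasFDerivAt.prodMk av.differentiableAt.hasFDerivAt)
    have c0 : HasFDerivAt (fun q : ℂ × ℂ => q.1) (ContinuousLinearMap.fst ℂ ℂ ℂ) p :=
      hasFDerivAt_fst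
    have c2 := (hasDerivAt_pow 3 p.1).comp_hasFDerivAt (f := fun q : ℂ × ℂ => q.1) p c0
    have c3 := c1.unique (c2.congr_of_eventuallyEq (by
      filter_upwards [hO.mem_nhds hp] with q hq using hF.law q hq))
    have c4 : L (fderiv ℂ f p (0, 1), fderiv ℂ (vv f) p (0, 1)) = 0 := by
      simpa using congrArg (fun A => A (0, 1)) c3
    have c5 : L (fderiv ℂ f p (1, 0), fderiv ℂ (vv f) p (1, 0)) = 3 * p.1 ^ 2 := by
      simpa using congrArg (fun A => A (1, 0)) c3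
    rw [reg_lin, L2, ← reg_dx af] at c4
    rw [reg_lin, L2] at c5
    have d0 : dx f p ≠ 0 := right_ne_zero_of_mul v0
    have L1 : L (1, 0) = 0 := by simpa [d0] using c4
    rw [L1] at c5
    exact pow_ne_zero 2 hW (by linear_combination (-1 / 3 : ℂ) * c5)
  · have e := h3 (de g f p)
    have e2 : de g f p = vv f p * g (f p) / 2 := rfl
    rw [← e2] at law
    linear_combination (-g (f p) ^ 3) * law + 8 * e -
      8 * sg (de g f p) * (de g f p ^ 2 + de g f p * (vv f p * g (f p) / 2) +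
        (vv f p * g (f p) / 2) ^ 2) * e2

end Vale.Agent.P097F.D
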