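import Vale.Agent.P097F.D.Defs
import Vale.Agent.P097EE.Ift

/-!
# P097F.D: the uniformising chart at a singular state (row 6509)
-/

set_option linter.all false

noncomputable section

namespace Vale.Agent.P097F.D

open Set Metric Filter Topology Complex Vale.Agent.P097D

namespace Sch

lemma imp {f : (ℂ × ℂ) × ℂ → ℂ} {p : ℂ × ℂ} {x a : ℂ} (hf : AnalyticAt ℂ f (p, x))
    (hd : HasDerivAt (fun v => f (p, v)) a x) (ha : a ≠ 0) :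
    ∃ ψ : ℂ × ℂ → ℂ, AnalyticAt ℂ ψ p ∧ ψ p = x ∧
      ∀ᶠ v in 𝓝 (p, x), f v = f (p, x) ↔ ψ v.1 = v.2 :=
  P097EE.impP hf (by rwa [(P097EE.hasDerivAt_snd hf.differentiableAt).unique hd])

lemma a11 (v : (ℂ × ℂ) × ℂ) : AnalyticAt ℂ (fun v : (ℂ × ℂ) × ℂ => v.1.1) v :=
  analyticAt_fst.comp analyticAt_fst

lemma a12 (v : (ℂ × ℂ) × ℂ) : AnalyticAt ℂ (fun v : (ℂ × ℂ) × ℂ => v.1.2) v :=
  analyticAt_snd.comp analyticAt_fst

lemma a21 (v : ℂ × ℂ × ℂ) : AnalyticAt ℂ (fun v : ℂ × ℂ × ℂ => v.2.1) v :=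
  analyticAt_fst.comp analyticAt_snd

lemma a22 (v : ℂ × ℂ × ℂ) : AnalyticAt ℂ (fun v : ℂ × ℂ × ℂ => v.2.2) v :=
  analyticAt_snd.comp analyticAt_snd

lemma line {F : ℂ × ℂ → ℂ} {q : ℂ × ℂ} (hF : AnalyticAt ℂ F q) :
    HasDerivAt (fun x => F (q.1, x)) (dx F q) q.2 :=
  (P097EE.hasDerivAt_snd (f := F) (p := q.1) (x := q.2) hF.differentiableAt).differentiableAt.hasDerivAt

lemma ln (q : ℂ × ℂ) : Tendsto (fun x : ℂ => (q.1, x)) (𝓝 q.2) (𝓝 q) :=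
  (Continuous.prodMk_right q.1).tendsto' _ _ rfl

lemma sqrt {h : ℂ × ℂ → ℂ} {p : ℂ × ℂ} (hh : AnalyticAt ℂ h p) (h0 : h p ≠ 0) :
    ∃ s : ℂ × ℂ → ℂ, AnalyticAt ℂ s p ∧ s p ≠ 0 ∧ ∀ᶠ q in 𝓝 p, s q ^ 2 = h q := by
  obtain ⟨a, ha⟩ := IsAlgClosed.exists_pow_nat_eq (h p) two_pos
  have a0 : a ≠ 0 := fun e => h0 (by rw [← ha, e]; simp)
  obtain ⟨ψ, a1, a2, a3⟩ := imp (f := fun v => v.2 ^ 2 - h v.1) (p := p) (x := a) (a := 2 * a)
    ((analyticAt_snd.pow 2).sub (hh.comp_of_eq analyticAt_fst rfl))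
    (by simpa using (hasDerivAt_pow 2 a).sub_const (h p)) (mul_ne_zero two_ne_zero a0)
  have t : Tendsto (fun y => (y, ψ y)) (𝓝 p) (𝓝 (p, a)) :=
    tendsto_id.prodMk_nhds (a2 ▸ a1.continuousAt.tendsto)
  refine ⟨ψ, a1, a2 ▸ a0, (t.eventually a3).mono fun q hq => ?_⟩
  have := hq.2 rfl
  simp only [ha, sub_self] at this
  exact sub_eq_zero.1 this

lemma dsl {g : ℂ → ℂ} {y : ℂ} (hg : AnalyticAt ℂ g y) : AnalyticAt ℂ (dslope g y) y :=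
  let ⟨_, hp⟩ := hg
  hp.has_fpower_series_dslope_fslope.analyticAt

lemma dSS (d : ℂ) : HasDerivAt SS (d * sin d) d := by
  have := (hasDerivAt_sin d).sub ((hasDerivAt_id d).mul (hasDerivAt_cos d))
  refine this.congr_deriv ?_
  simp

lemma anSS (d : ℂ) : AnalyticAt ℂ SS d :=
  analyticAt_sin.sub (analyticAt_id.mul analyticAt_cos)

/-- the abstract chart -/
lemma pack (hP : S_PRIM) {g : ℂ → ℂ} {W₀ y₀ d₀ t₀ : ℂ} {Y D k : ℂ × ℂ → ℂ} {c : ℂ × ℂ × ℂ → ℂ}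
    (hg : AnalyticAt ℂ g y₀) (y0 : y₀.im < 0) (d0 : d₀ ≠ 0) (g0 : deriv g y₀ ≠ 0)
    (aY : AnalyticAt ℂ Y (W₀, t₀)) (aD : AnalyticAt ℂ D (W₀, t₀)) (ak : AnalyticAt ℂ k (W₀, t₀))
    (eY : Y (W₀, t₀) = y₀) (eD : D (W₀, t₀) = d₀) (k0 : k (W₀, t₀) ≠ 0)
    (inv : ∀ᶠ q in 𝓝 (W₀, t₀), (q.1 * g (Y q)) ^ 3 = 24 * SS (D q))
    (ode : ∀ᶠ q in 𝓝 (W₀, t₀), q.1 * g (Y q) * dx Y q = 2 * D q * ((q.2 - t₀) * k q))
    (ty : (∀ W, g (Y (W, t₀)) = 0) ∨ ∀ W, sin (D (W, t₀)) = 0)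
    (ac : AnalyticAt ℂ c (W₀, y₀, d₀)) (ec : c (W₀, y₀, d₀) = t₀)
    (hc : ∀ᶠ s in 𝓝 (W₀, y₀, d₀), (s.1 * g s.2.1) ^ 3 = 24 * SS s.2.2 →
      Y (s.1, c s) = s.2.1 ∧ D (s.1, c s) = s.2.2) :
    ∃ r > 0, ∃ (Φ Δ : ℂ × ℂ → ℂ) (tc : ℂ × ℂ × ℂ → ℂ),
      Ch g (ball W₀ r) r Φ Δ ∧ AnalyticAt ℂ tc (W₀, y₀, d₀) ∧ tc (W₀, y₀, d₀) = 0 ∧
      ∀ᶠ s in 𝓝 (W₀, y₀, d₀), (s.1 * g s.2.1) ^ 3 = 24 * SS s.2.2 →
        Φ (s.1, tc s) = s.2.1 ∧ Δ (s.1, tc s) = s.2.2 := by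
  obtain ⟨h, ah, eh, dh⟩ := hP k W₀ t₀ 1 ak
  obtain ⟨s, as, s0, hs⟩ := sqrt ah (by rw [eh]; exact div_ne_zero k0 (by norm_num))
  let τ : ℂ × ℂ → ℂ := fun q => (q.2 - t₀) * s q
  have aτ : AnalyticAt ℂ τ (W₀, t₀) := (analyticAt_snd.sub analyticAt_const).mul as
  have τ0 : ∀ W, τ (W, t₀) = 0 := fun W => by simp [τ]
  have m1 : AnalyticAt ℂ (fun v : (ℂ × ℂ) × ℂ => (v.1.1, v.2)) ((W₀, 0), t₀) :=
    (a11 _).prod analyticAt_snd
  obtain ⟨ψ, aψ, eψ, hψ⟩ := imp (f := fun v => τ (v.1.1, v.2) - v.1.2) (p := (W₀, 0)) (x := t₀)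
    (a := s (W₀, t₀)) ((aτ.comp_of_eq m1 rfl).sub (a12 _))
    (by simpa [τ] using (((hasDerivAt_id t₀).sub_const t₀).mul (line as)).sub_const 0) s0
  simp only [τ0, sub_self, sub_eq_zero] at hψ
  let G : ℂ × ℂ → ℂ × ℂ := fun q => (q.1, ψ q)
  have aG : AnalyticAt ℂ G (W₀, 0) := analyticAt_fst.prod aψ
  have eG : G (W₀, 0) = (W₀, t₀) := Prod.ext rfl eψ
  have tG : Tendsto G (𝓝 (W₀, 0)) (𝓝 (W₀, t₀)) := eG ▸ aG.continuousAt.tendsto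
  have t1 : Tendsto (fun q => (q, ψ q)) (𝓝 (W₀, 0)) (𝓝 ((W₀, 0), t₀)) :=
    tendsto_id.prodMk_nhds (eψ ▸ aψ.continuousAt.tendsto)
  have t2 : Tendsto (fun q : ℂ × ℂ => ((q.1, (0 : ℂ)), t₀)) (𝓝 (W₀, 0)) (𝓝 ((W₀, 0), t₀)) :=
    (by fun_prop : Continuous fun q : ℂ × ℂ => ((q.1, (0 : ℂ)), t₀)).tendsto' _ _ rfl
  have t3 : Tendsto (fun q : ℂ × ℂ => ((q.1, τ q), q.2)) (𝓝 (W₀, t₀)) (𝓝 ((W₀, 0), t₀)) :=
    (continuousAt_fst.tendsto.prodMk_nhds (τ0 W₀ ▸ aτ.continuousAt.tendsto)).prodMk_nhds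
      continuousAt_snd.tendsto
  have e1 : ∀ᶠ q in 𝓝 (W₀, (0 : ℂ)), (ψ q - t₀) ^ (1 + 1) * h (q.1, ψ q) = q.2 ^ 2 := by
    filter_upwards [t1.eventually hψ, tG.eventually hs] with q h1 h2
    have h3 : (ψ q - t₀) * s (q.1, ψ q) = q.2 := h1.2 rfl
    have h4 : s (q.1, ψ q) ^ 2 = h (q.1, ψ q) := h2
    rw [← h4, ← h3]
    ring
  have aΦ : AnalyticAt ℂ (fun q => Y (G q)) (W₀, 0) := aY.comp_of_eq aG eG
  have aΔ : AnalyticAt ℂ (fun q => D (G q)) (W₀, 0) := aD.comp_of_eq aG eG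
  have tY : Tendsto Y (𝓝 (W₀, t₀)) (𝓝 y₀) := eY ▸ aY.continuousAt.tendsto
  have tD : Tendsto D (𝓝 (W₀, t₀)) (𝓝 d₀) := eD ▸ aD.continuousAt.tendsto
  have all : ∀ᶠ q in 𝓝 (W₀, (0 : ℂ)), AnalyticAt ℂ (fun q => Y (G q)) q ∧
      AnalyticAt ℂ (fun q => D (G q)) q ∧
      ((Y (G q)).im < 0 ∧ D (G q) ≠ 0 ∧ deriv g (Y (G q)) ≠ 0) ∧
      (q.1 * g (Y (G q))) ^ 3 = 24 * SS (D (G q)) ∧
      q.1 * g (Y (G q)) * dx (fun q => Y (G q)) q = 4 * q.2 * D (G q) ∧ ψ (q.1, 0) = t₀ := by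
    filter_upwards [aΦ.eventually_analyticAt, aΔ.eventually_analyticAt,
      (tY.comp tG).eventually (continuous_im.continuousAt.eventually_lt continuousAt_const y0),
      (tD.comp tG).eventually (eventually_ne_nhds d0),
      (tY.comp tG).eventually (hg.deriv.continuousAt.eventually_ne g0),
      tG.eventually inv, tG.eventually ode, t2.eventually hψ, e1.eventually_nhds,
      aψ.eventually_analyticAt, tG.eventually aY.eventually_analyticAt, tG.eventually dh]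
      with q h1 h2 h3 h4 h5 h6 h7 h8 h9 h10 h11 h12
    refine ⟨h1, h2, ⟨h3, h4, h5⟩, h6, ?_, h8.1 (τ0 _)⟩
    have k1 := line h10
    have k2 : HasDerivAt (fun x => Y (G (q.1, x))) (dx Y (G q) * dx ψ q) q.2 :=
      HasDerivAt.comp_of_eq (h₂ := fun x => Y (q.1, x)) (h := fun x => ψ (q.1, x)) q.2
        (line h11) k1 rfl
    have k3 := HasDerivAt.comp_of_eq (h₂ := fun y => (y - t₀) ^ (1 + 1) * h (q.1, y))
      (h := fun x => ψ (q.1, x)) q.2 h12 k1 rfl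
    have k4 : HasDerivAt (fun x : ℂ => x ^ 2) (2 * q.2) q.2 := by
      simpa using hasDerivAt_pow 2 q.2
    have k5 := (k3.congr_of_eventuallyEq (((ln q).eventually h9).mono fun x hx => hx.symm)).unique k4
    have k6 : dx (fun q => Y (G q)) q = dx Y (G q) * dx ψ q := k2.deriv
    have k7 : q.1 * g (Y (G q)) * dx Y (G q) = 2 * D (G q) * ((ψ q - t₀) * k (G q)) := h7
    have k8 : (ψ q - t₀) ^ 1 * k (G q) * dx ψ q = 2 * q.2 := k5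
    rw [k6]
    linear_combination dx ψ q * k7 + 2 * D (G q) * k8
  obtain ⟨r, r0, hr⟩ := Metric.eventually_nhds_iff_ball.1 all
  rw [← ball_prod_same] at hr
  have z : ∀ W ∈ ball W₀ r, G (W, 0) = (W, t₀) := fun W hW =>
    Prod.ext rfl (hr (W, 0) ⟨hW, mem_ball_self r0⟩).2.2.2.2.2
  have m2 : AnalyticAt ℂ (fun s : ℂ × ℂ × ℂ => (s.1, c s)) (W₀, y₀, d₀) := analyticAt_fst.prod ac
  have e2 : (fun s : ℂ × ℂ × ℂ => (s.1, c s)) (W₀, y₀, d₀) = (W₀, t₀) := Prod.ext rfl ec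
  have t4 : Tendsto (fun s : ℂ × ℂ × ℂ => (s.1, c s)) (𝓝 (W₀, y₀, d₀)) (𝓝 (W₀, t₀)) :=
    e2 ▸ m2.continuousAt.tendsto
  refine ⟨r, r0, fun q => Y (G q), fun q => D (G q), fun s => τ (s.1, c s),
    ⟨fun q hq => (hr q hq).1, fun q hq => (hr q hq).2.1, fun q hq => (hr q hq).2.2.1,
      fun q hq => (hr q hq).2.2.2.1, fun q hq => (hr q hq).2.2.2.2.1,
      ty.imp (fun e W hW => by rw [z W hW]; exact e W) fun e W hW => by rw [z W hW]; exact e W⟩,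
    aτ.comp_of_eq m2 e2, (congrArg τ e2).trans (τ0 _), ?_⟩
  filter_upwards [hc, t4.eventually (t3.eventually hψ)] with s h1 h2 h3
  have e : G (s.1, τ (s.1, c s)) = (s.1, c s) := Prod.ext rfl (h2.1 rfl)
  rw [e]
  exact h1 h3

end Sch

open Sch in
theorem sch (hP : S_PRIM) : S_SCH := by
  intro g W₀ y₀ d₀ hg ⟨W0, y0, law, d0, g0, ty⟩
  have op : IsOpen (Lo 0) := isOpen_lt continuous_im continuous_const
  have ag : AnalyticAt ℂ g y₀ := hg.analyticAt (op.mem_nhds y0)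
  by_cases hz : g y₀ = 0
  · have s0 : sin d₀ ≠ 0 := fun e => by
      rw [hz, SS, e] at law
      have h1 : d₀ * cos d₀ = 0 := by linear_combination (1 / 24 : ℂ) * law
      have h2 := sin_sq_add_cos_sq d₀
      rw [e, (mul_eq_zero.1 h1).resolve_left d0] at h2
      simp at h2
    have m1 : AnalyticAt ℂ (fun v : (ℂ × ℂ) × ℂ => v.1.2) ((W₀, y₀), d₀) := a12 _
    obtain ⟨D, aD, eD, hD⟩ := imp (f := fun v => 24 * SS v.2 - (v.1.1 * g v.1.2) ^ 3)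
      (p := (W₀, y₀)) (x := d₀) (a := 24 * (d₀ * sin d₀))
      ((analyticAt_const.mul ((anSS d₀).comp_of_eq analyticAt_snd rfl)).sub
        (((a11 _).mul
          (ag.comp_of_eq m1 rfl)).pow 3))
      (((dSS d₀).const_mul 24).sub_const ((W₀ * g y₀) ^ 3)) (mul_ne_zero (by norm_num) (mul_ne_zero d0 s0))
    simp only [← law, sub_self, sub_eq_zero] at hD
    have t1 : Tendsto (fun q => (q, D q)) (𝓝 (W₀, y₀)) (𝓝 ((W₀, y₀), d₀)) :=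
      tendsto_id.prodMk_nhds (eD ▸ aD.continuousAt.tendsto)
    have t2 : Tendsto (fun s : ℂ × ℂ × ℂ => ((s.1, s.2.1), s.2.2)) (𝓝 (W₀, y₀, d₀))
        (𝓝 ((W₀, y₀), d₀)) :=
      (by fun_prop : Continuous fun s : ℂ × ℂ × ℂ => ((s.1, s.2.1), s.2.2)).tendsto' _ _ rfl
    have D0 : D (W₀, y₀) ≠ 0 := eD ▸ d0
    refine pack hP (t₀ := y₀) (Y := fun q => q.2) (D := D)
      (k := fun q => q.1 * dslope g y₀ q.2 / (2 * D q)) (c := fun s => s.2.1) ag y0 d0 g0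
      analyticAt_snd aD ((analyticAt_fst.mul ((dsl ag).comp_of_eq analyticAt_snd rfl)).div
        (analyticAt_const.mul aD) (mul_ne_zero two_ne_zero D0)) rfl eD
      (div_ne_zero (mul_ne_zero W0 (by rwa [dslope_same])) (mul_ne_zero two_ne_zero D0))
      ((t1.eventually hD).mono fun q hq => (hq.2 rfl).symm) ?_ (.inl fun _ => hz) (a21 _) rfl
      ((t2.eventually hD).mono fun s hs h => ⟨rfl, hs.1 h.symm⟩)
    filter_upwards [aD.continuousAt.eventually_ne D0] with q hq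
    have e1 := sub_smul_dslope g y₀ q.2
    rw [hz, sub_zero, smul_eq_mul] at e1
    have e2 : dx (fun q => q.2) q = 1 := by simp [dx]
    rw [e2, ← e1]
    field_simp
  · have s0 : sin d₀ = 0 := ty.resolve_left hz
    have c0 : cos d₀ ≠ 0 := fun e => by
      have h2 := sin_sq_add_cos_sq d₀
      rw [e, s0] at h2
      simp at h2
    have m1 : AnalyticAt ℂ (fun v : (ℂ × ℂ) × ℂ => v.1.2) ((W₀, d₀), y₀) := a12 _
    obtain ⟨Y, aY, eY, hY⟩ := imp (f := fun v => (v.1.1 * g v.2) ^ 3 - 24 * SS v.1.2)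
      (p := (W₀, d₀)) (x := y₀) (a := 3 * (W₀ * g y₀) ^ 2 * (W₀ * deriv g y₀))
      ((((a11 _).mul
          (ag.comp_of_eq analyticAt_snd rfl)).pow 3).sub
        (analyticAt_const.mul ((anSS d₀).comp_of_eq m1 rfl)))
      (((ag.differentiableAt.hasDerivAt.const_mul W₀).fun_pow 3).sub_const (24 * SS d₀)
        |>.congr_deriv (by simp))
      (mul_ne_zero (mul_ne_zero (by norm_num) (pow_ne_zero 2 (mul_ne_zero W0 hz)))
        (mul_ne_zero W0 g0))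
    simp only [law, sub_self, sub_eq_zero] at hY
    have tY : Tendsto Y (𝓝 (W₀, d₀)) (𝓝 y₀) := eY ▸ aY.continuousAt.tendsto
    have t1 : Tendsto (fun q => (q, Y q)) (𝓝 (W₀, d₀)) (𝓝 ((W₀, d₀), y₀)) :=
      tendsto_id.prodMk_nhds tY
    have t2 : Tendsto (fun s : ℂ × ℂ × ℂ => ((s.1, s.2.2), s.2.1)) (𝓝 (W₀, y₀, d₀))
        (𝓝 ((W₀, d₀), y₀)) :=
      (by fun_prop : Continuous fun s : ℂ × ℂ × ℂ => ((s.1, s.2.2), s.2.1)).tendsto' _ _ rfl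
    have inv : ∀ᶠ q in 𝓝 (W₀, d₀), (q.1 * g (Y q)) ^ 3 = 24 * SS q.2 :=
      (t1.eventually hY).mono fun q hq => hq.2 rfl
    have n0 : W₀ ^ 2 * g (Y (W₀, d₀)) * deriv g (Y (W₀, d₀)) ≠ 0 := by
      rw [eY]; exact mul_ne_zero (mul_ne_zero (pow_ne_zero 2 W0) hz) g0
    have an : AnalyticAt ℂ (fun q : ℂ × ℂ => q.1 ^ 2 * g (Y q) * deriv g (Y q)) (W₀, d₀) :=
      ((analyticAt_fst.pow 2).mul (ag.comp_of_eq aY eY)).mul (ag.deriv.comp_of_eq aY eY)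
    refine pack hP (t₀ := d₀) (Y := Y) (D := fun q => q.2)
      (k := fun q => 4 * dslope sin d₀ q.2 / (q.1 ^ 2 * g (Y q) * deriv g (Y q)))
      (c := fun s => s.2.2) ag y0 d0 g0 aY analyticAt_snd
      ((analyticAt_const.mul ((dsl analyticAt_sin).comp_of_eq analyticAt_snd rfl)).div an n0) eY rfl
      (div_ne_zero (mul_ne_zero (by norm_num) (by rwa [dslope_same, Complex.deriv_sin])) n0)
      inv ?_ (.inr fun _ => s0) (a22 _) rfl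
      ((t2.eventually hY).mono fun s hs h => ⟨hs.1 h, rfl⟩)
    filter_upwards [an.continuousAt.eventually_ne n0, inv.eventually_nhds, aY.eventually_analyticAt,
      tY.eventually ag.eventually_analyticAt] with q h1 h2 h3 h4
    have e1 := sub_smul_dslope sin d₀ q.2
    rw [s0, sub_zero, smul_eq_mul] at e1
    have k1 := HasDerivAt.comp_of_eq (h₂ := g) (h := fun x => Y (q.1, x)) q.2
      h4.differentiableAt.hasDerivAt (line h3) rfl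
    have k2 := (((k1.const_mul q.1).fun_pow 3).congr_of_eventuallyEq
      (((ln q).eventually h2).mono fun x hx => hx.symm)).unique ((dSS q.2).const_mul 24)
    have k3 : (3 : ℂ) * (q.1 * g (Y q)) ^ 2 * (q.1 * (deriv g (Y q) * dx Y q)) =
        24 * (q.2 * sin q.2) := by simpa using k2
    rw [← e1] at k3
    rw [← mul_div_assoc, ← mul_div_assoc, eq_div_iff h1]
    linear_combination (1 / 3 : ℂ) * k3

end Vale.Agent.P097F.D
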