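import Vale.Agent.P097F.D.Defs

/-!
# P097F.D: the continuation round a singular top point
-/

set_option linter.all false

noncomputable section

namespace Vale.Agent.P097F.D

open Set Metric Filter Topology Complex Vale.Agent.P097D

lemma sing_rc_open (a b s t : ℝ) : IsOpen (Rc a b s t) :=
  (isOpen_lt continuous_const continuous_re).inter ((isOpen_lt continuous_re continuous_const).inter
    ((isOpen_lt continuous_const continuous_im).inter (isOpen_lt continuous_im continuous_const)))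

lemma sing_de {g : ℂ → ℂ} {f f' : ℂ × ℂ → ℂ} {p : ℂ × ℂ} (h : f =ᶠ[𝓝 p] f') :
    de g f p = de g f' p := by
  have h1 : (fun x => f (p.1, x)) =ᶠ[𝓝 p.2] fun x => f' (p.1, x) :=
    (Continuous.tendsto' (f := fun x : ℂ => (p.1, x)) (by fun_prop) p.2 p rfl).eventually h
  simp only [de, vv, dx, h1.deriv_eq, h.eq_of_nhds]

/-- a box round a point off the slit, which is off the slits -/
lemma sing_box {X : ℂ → ℂ} {W₀ x₀ W x : ℂ} {σ ρ : ℝ} (hX : ContinuousOn X (ball W₀ σ))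
    (hn : ∀ W ∈ ball W₀ σ, ‖X W - x₀‖ < ρ / 8) (hW : W ∈ ball W₀ σ)
    (h1 : x₀.re - ρ < x.re) (h2 : x.re < x₀.re + ρ) (h3 : x.im < x₀.im + ρ) (hs : ¬ Sl (X W) x) :
    ∃ (V : Set ℂ) (a b t : ℝ), IsOpen V ∧ W ∈ V ∧ V ⊆ ball W₀ σ ∧ a < x.re ∧ x.re < b ∧
      x.im < t ∧ x₀.re - ρ ≤ a ∧ b ≤ x₀.re + ρ ∧ x₀.im - ρ / 2 ≤ t ∧ t ≤ x₀.im + ρ ∧
      ∀ W' ∈ V, ∀ z : ℂ, a < z.re → z.re < b → z.im < t → ¬ Sl (X W') z := by
  have n1 := hn W hW
  have n2 : |(X W).im - x₀.im| < ρ / 8 := by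
    simpa using (Complex.abs_im_le_norm (X W - x₀)).trans_lt n1
  have ρ0 : 0 < ρ := by linarith [abs_nonneg ((X W).im - x₀.im)]
  rw [abs_lt] at n2
  by_cases he : x.re = (X W).re
  · have hi : x.im < (X W).im := not_le.1 fun h => hs ⟨he, h⟩
    obtain ⟨t, t1, t2⟩ := exists_between (show max x.im (x₀.im - ρ / 2) < (X W).im from
      max_lt hi (by linarith))
    refine ⟨ball W₀ σ ∩ (fun w => (X w).im) ⁻¹' Ioi t, x₀.re - ρ, x₀.re + ρ, t,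
      (continuous_im.comp_continuousOn hX).isOpen_inter_preimage isOpen_ball isOpen_Ioi,
      ⟨hW, t2⟩, inter_subset_left, h1, h2, (le_max_left _ _).trans_lt t1, le_rfl, le_rfl,
      ((le_max_right _ _).trans_lt t1).le, by linarith, fun W' hW' z _ _ hz h => ?_⟩
    have : t < (X W').im := hW'.2
    linarith [h.2]
  · have e0 : 0 < |x.re - (X W).re| / 2 := half_pos (abs_pos.2 (sub_ne_zero.2 he))
    set e := |x.re - (X W).re| / 2 with hE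
    refine ⟨ball W₀ σ ∩ (fun w => (X w).re) ⁻¹' Ioo ((X W).re - e) ((X W).re + e),
      max (x₀.re - ρ) (x.re - e), min (x₀.re + ρ) (x.re + e), x₀.im + ρ,
      (continuous_re.comp_continuousOn hX).isOpen_inter_preimage isOpen_ball isOpen_Ioo,
      ⟨hW, by constructor <;> (beta_reduce; linarith)⟩, inter_subset_left, max_lt h1 (by linarith),
      lt_min h2 (by linarith), h3, le_max_left _ _, min_le_left _ _, by linarith, le_rfl,
      fun W' hW' z a1 a2 _ h => ?_⟩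
    have b1 : (X W).re - e < (X W').re := hW'.2.1
    have b2 : (X W').re < (X W).re + e := hW'.2.2
    have b3 := (le_max_right _ _).trans_lt a1
    have b4 := a2.trans_le (min_le_right _ _)
    have b5 := h.1
    have : |x.re - (X W).re| < 2 * e := abs_lt.2 ⟨by linarith, by linarith⟩
    linarith

theorem sing (hO : S_OM) (hU : S_UP) (hC : S_CHF) (hB : S_BOT) : S_SING := by
  intro E Y W₀ x₀ y d hM hb ha hβ hin hS hT
  obtain ⟨ρ₀, ρ00, hB⟩ := hB E Y W₀ x₀ y d hM hb ha hβ hin hS hT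
  refine ⟨min ρ₀ (x₀.im - E.b₁), lt_min ρ00 (by linarith), fun ρ ρ0 hρ => ?_⟩
  obtain ⟨σ, σ0, X, Φ, Δ, an, at0, near, ch, bot⟩ := hB ρ ρ0 (hρ.trans (min_le_left _ _))
  have hρ1 : ρ ≤ x₀.im - E.b₁ := hρ.trans (min_le_right _ _)
  have lt01 := hM.ok.lt
  obtain ⟨oO, dO, -, mO⟩ := hO E hM.ok
  have W0 : ∀ W ∈ ball W₀ σ, W ≠ 0 := fun W hW => hM.ok.ne W (mO _ (bot W hW
    ⟨x₀.re, x₀.im - 3 * ρ / 4⟩ ⟨by simp [ρ0], by simp [ρ0], by simp; linarith,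
      by simp; linarith⟩).1).1
  obtain ⟨⟨fF, dF⟩, cF⟩ := hC E.g (ball W₀ σ) (2 * √ρ) Φ Δ X hM.ok.ang isOpen_ball W0 ch an
    (by positivity)
  have r2 : (2 * √ρ) ^ 2 = 4 * ρ := by rw [mul_pow, Real.sq_sqrt ρ0.le]; norm_num
  have nr : ∀ W ∈ ball W₀ σ, ∀ x ∈ Rc (x₀.re - ρ) (x₀.re + ρ) (x₀.im - ρ) (x₀.im + ρ),
      ‖x - X W‖ < (2 * √ρ) ^ 2 := fun W hW x ⟨a1, a2, a3, a4⟩ => by
    have b1 := Complex.norm_le_abs_re_add_abs_im (x - x₀)
    have b2 : |(x - x₀).re| < ρ := by rw [sub_re, abs_lt]; constructor <;> linarith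
    have b3 : |(x - x₀).im| < ρ := by rw [sub_im, abs_lt]; constructor <;> linarith
    have b4 := norm_sub_le (x - x₀) (X W - x₀)
    rw [sub_sub_sub_cancel_right] at b4
    linarith [near W hW]
  have key : ∀ W ∈ ball W₀ σ, ∀ x : ℂ, x₀.re - ρ < x.re → x.re < x₀.re + ρ → x.im < x₀.im + ρ →
      ¬ Sl (X W) x → (E.b₀ < x.im → (W, x) ∈ E.Om) ∧ (x₀.im - ρ < x.im →
        (fun p : ℂ × ℂ => Φ (p.1, sq (p.2 - X p.1))) =ᶠ[𝓝 (W, x)] Y) := by
    intro W hW x h1 h2 h3 hs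
    obtain ⟨V, a, b, t, oV, wV, sV, a1, a2, a3, a4, a5, a6, a7, hV⟩ :=
      sing_box an.continuousOn near hW h1 h2 h3 hs
    have s1 : ∀ p ∈ V ×ˢ Rc a b (x₀.im - ρ) (x₀.im - ρ / 2),
        p ∈ E.Om ∧ Y p = Φ (p.1, sq (p.2 - X p.1)) := fun p ⟨p1, p2, p3, p4, p5⟩ =>
      bot p.1 (sV p1) p.2 ⟨by linarith, by linarith, p4, p5⟩
    have s2 : V ×ˢ Rc a b (x₀.im - ρ) t ⊆
        {p | p.1 ∈ ball W₀ σ ∧ ‖p.2 - X p.1‖ < (2 * √ρ) ^ 2 ∧ ¬ Sl (X p.1) p.2} :=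
      fun p ⟨p1, p2, p3, p4, p5⟩ => ⟨sV p1, nr _ (sV p1) _ ⟨by linarith, by linarith, p4,
        by linarith⟩, hV _ p1 _ p2 p3 p5⟩
    obtain ⟨u1, u2⟩ := hU E Y (fun p : ℂ × ℂ => Φ (p.1, sq (p.2 - X p.1))) V a b (x₀.im - ρ)
      (x₀.im - ρ / 2) t hM oV (by linarith) (by linarith) a6 (fun p hp => (s1 p hp).1)
      ⟨fF.an.mono s2, fun p hp => fF.lo p (s2 hp), fun p hp => fF.law p (s2 hp)⟩
      fun p hp => (s1 p hp).2.symm
    exact ⟨fun h => u1 ⟨wV, a1, a2, h, a3⟩, fun h => by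
      filter_upwards [(oV.prod (sing_rc_open a b (x₀.im - ρ) t)).mem_nhds
        (show (W, x) ∈ V ×ˢ Rc a b (x₀.im - ρ) t from ⟨wV, a1, a2, h, a3⟩)] with p hp using u2 p hp⟩
  have loc : ∀ W ∈ ball W₀ σ, ∀ x ∈ Rc (x₀.re - ρ) (x₀.re + ρ) (x₀.im - ρ) (x₀.im + ρ),
      ¬ Sl (X W) x → Y (W, x) = Φ (W, sq (x - X W)) ∧ de E.g Y (W, x) = Δ (W, sq (x - X W)) :=
    fun W hW x hx hs => by
      have k := (key W hW x hx.1 hx.2.1 hx.2.2.2 hs).2 hx.2.2.1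
      exact ⟨k.eq_of_nhds.symm, (sing_de k).symm.trans (dF (W, x) hW (nr W hW x hx) hs)⟩
  refine ⟨σ, σ0, X, Φ, Δ, an, at0, near, fun W hW x hx => ⟨fun h hs => ?_, fun hs =>
    (key W hW x hx.1 hx.2.1 hx.2.2.2 hs).1 hx.2.2.1⟩, ch, loc⟩
  have n1 := near W hW
  have n2 : |(X W).im - x₀.im| < ρ / 8 := by
    simpa using (Complex.abs_im_le_norm (X W - x₀)).trans_lt n1
  have n3 : |(X W).re - x₀.re| < ρ / 8 := by
    simpa using (Complex.abs_re_le_norm (X W - x₀)).trans_lt n1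
  rw [abs_lt] at n2 n3
  refine cF Y E.Om oO hM.fam W hW (dO (W, x) h (X W) hs.1.symm (by linarith) hs.2) ?_
  filter_upwards [self_mem_nhdsWithin, mem_nhdsWithin_of_mem_nhds
    ((sing_rc_open (x₀.re - ρ) (x₀.re + ρ) (x₀.im - ρ) (x₀.im + ρ)).mem_nhds
      (show X W ∈ _ from ⟨by linarith, by linarith, by linarith, by linarith⟩))] with z z1 z2
  exact (loc W hW z z2 fun h => absurd h.2 (not_le.2 z1)).1

end Vale.Agent.P097F.D
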