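import Vale.Agent.P097F.D.Mono

/-!
# P097F.D: the finite list of obstacles at one step
-/

noncomputable section

namespace Vale.Agent.P097F.D

open Set Metric Filter Topology Complex Vale.Agent.P097D

theorem ev_not_sl {X : ℂ → ℂ} {W₀ x₀ : ℂ} (hc : ContinuousAt X W₀) (h : x₀.re ≠ (X W₀).re) :
    ∀ᶠ p : ℂ × ℂ in 𝓝 (W₀, x₀), ¬ Sl (X p.1) p.2 := by
  have h1 : ContinuousAt (fun p : ℂ × ℂ => p.2.re - (X p.1).re) (W₀, x₀) :=
    (continuous_re.continuousAt.comp continuousAt_snd).sub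
      (continuous_re.continuousAt.comp (ContinuousAt.comp (f := Prod.fst) hc continuousAt_fst))
  exact (h1.eventually_ne (sub_ne_zero.2 h)).mono fun p hp hs => hp (sub_eq_zero.2 hs.1)

theorem rc_nhds {a b s t : ℝ} {x : ℂ} (h : x ∈ Rc a b s t) : Rc a b s t ∈ 𝓝 x := by
  refine IsOpen.mem_nhds ?_ h
  exact (isOpen_lt continuous_const continuous_re).inter
    ((isOpen_lt continuous_re continuous_const).inter
      ((isOpen_lt continuous_const continuous_im).inter (isOpen_lt continuous_im continuous_const)))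

theorem exists_pos_le {ι : Type*} [Finite ι] (r : ι → ℝ) (h : ∀ i, 0 < r i) :
    ∃ ρ > 0, ∀ i, ρ ≤ r i := by
  have : ∀ᶠ ρ in 𝓝[>] (0 : ℝ), ∀ i, ρ ≤ r i :=
    eventually_all.2 fun i => mem_nhdsWithin_of_mem_nhds (Iic_mem_nhds (h i))
  obtain ⟨ρ, h1, h2⟩ := (this.and self_mem_nhdsWithin).exists
  exact ⟨ρ, h2, h1⟩

theorem str (hO : S_OM) (hC : S_CLUS) (hS : S_SING) : S_STR := by
  intro E Y W₀ T a₁ a₂ hM hZ hP h1 h12 h2
  obtain ⟨oo, dn, -, -⟩ := hO E hM.ok
  let pt : ℝ → ℂ := fun u => ⟨u, T⟩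
  have cpt : Continuous pt := by
    have : pt = fun u : ℝ => (u : ℂ) + T * I := by
      funext u; apply Complex.ext <;> simp [pt]
    rw [this]; fun_prop
  have hbT : E.b₀ < T := hM.ok.lt.trans hP.2.1
  let S : Set ℝ := {u | u ∈ Icc a₁ a₂ ∧ (W₀, pt u) ∉ E.Om}
  have hloc : ∀ u ∈ S, ∃ σ > 0, ∃ ρ > 0, ∃ X Φ Δ, One E Y W₀ (pt u) σ ρ X Φ Δ := by
    intro u hu
    have ha : E.α < (pt u).re := h1.trans_le hu.1.1
    have hb : (pt u).re < E.β := hu.1.2.trans_lt h2
    obtain ⟨y, d, hs, ht⟩ := hC E Y W₀ (pt u) hM hZ hP ha hb hu.2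
    obtain ⟨ρ, hρ, h⟩ := hS E Y W₀ (pt u) y d hM hP.2.1 ha hb hP.2.2.2.1 hs ht
    obtain ⟨σ, hσ, h⟩ := h ρ hρ le_rfl
    exact ⟨σ, hσ, ρ, hρ, h⟩
  choose! σ hσ ρ hρ X Φ Δ hone using hloc
  have hSc : IsCompact S := by
    refine isCompact_Icc.inter_right (t := {u | (W₀, pt u) ∉ E.Om}) ?_
    exact (oo.preimage (continuous_const.prodMk cpt)).isClosed_compl
  have hSf : S.Finite := by
    obtain ⟨t, ht, hc⟩ := hSc.elim_nhds_subcover (fun u => ball u (ρ u))
      fun u hu => ball_mem_nhds u (hρ u hu)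
    refine t.finite_toSet.subset fun v hv => ?_
    obtain ⟨u, hu, hvu⟩ := mem_iUnion₂.1 (hc hv)
    have hu' := ht u hu
    rw [Real.ball_eq_Ioo] at hvu
    by_contra hn
    refine hv.2 (((hone u hu').om W₀ (mem_ball_self (hσ u hu')) (pt v)
      ⟨hvu.1, hvu.2, hbT, lt_add_of_pos_right T (hρ u hu')⟩).2 fun hs => hn ?_)
    have e : v = u := by
      have := hs.1
      rwa [(hone u hu').at₀] at this
    rw [e]; exact hu
  let n := hSf.toFinset.card
  let o : Fin n ↪o ℝ := hSf.toFinset.orderEmbOfFin rfl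
  have hoS : ∀ c, o c ∈ S := fun c => hSf.mem_toFinset.1 (Finset.orderEmbOfFin_mem _ _ c)
  have hSo : ∀ u ∈ S, ∃ c, o c = u := fun u hu => by
    have : u ∈ range o := by
      rw [Finset.range_orderEmbOfFin]; exact hSf.mem_toFinset.2 hu
    exact this
  have hX0 : ∀ c, X (o c) W₀ = pt (o c) := fun c => (hone _ (hoS c)).at₀
  have hXc : ∀ c, ContinuousAt (X (o c)) W₀ := fun c =>
    ((hone _ (hoS c)).an W₀ (mem_ball_self (hσ _ (hoS c)))).continuousAt
  have hev : ∀ u ∈ Icc a₁ a₂, ∀ᶠ p : ℂ × ℂ in 𝓝 (W₀, pt u),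
      (p ∈ E.Om ↔ ∀ c, ¬ Sl (X (o c) p.1) p.2) := by
    intro u hu
    by_cases hm : (W₀, pt u) ∈ E.Om
    · have h3 : ∀ᶠ p : ℂ × ℂ in 𝓝 (W₀, pt u), ∀ c, ¬ Sl (X (o c) p.1) p.2 :=
        eventually_all.2 fun c => ev_not_sl (hXc c) (by
          rw [hX0]
          intro e
          have e' : u = o c := e
          exact (hoS c).2 (e' ▸ hm))
      filter_upwards [h3, oo.mem_nhds hm] with p hp hq
      exact ⟨fun _ => hp, fun _ => hq⟩
    · obtain ⟨c, rfl⟩ := hSo u ⟨hu, hm⟩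
      have h3 : ∀ᶠ p : ℂ × ℂ in 𝓝 (W₀, pt (o c)), ∀ c', c' ≠ c → ¬ Sl (X (o c') p.1) p.2 :=
        eventually_all.2 fun c' => by
          by_cases e : c' = c
          · exact Eventually.of_forall fun p h => absurd e h
          · refine (ev_not_sl (hXc c') ?_).mono fun p hp _ => hp
            rw [hX0]
            exact fun e' => e (o.injective e').symm
      have hr := hρ _ (hoS c)
      have h4 := prod_mem_nhds (ball_mem_nhds W₀ (hσ _ (hoS c)))
        (rc_nhds (x := pt (o c)) (a := (pt (o c)).re - ρ (o c)) (b := (pt (o c)).re + ρ (o c))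
          (s := E.b₀) (t := (pt (o c)).im + ρ (o c))
          ⟨by linarith, by linarith, hbT, by linarith⟩)
      filter_upwards [h3, h4] with p hp hq
      rw [(hone _ (hoS c)).om p.1 hq.1 p.2 hq.2]
      refine ⟨fun h c' => ?_, fun h => h c⟩
      by_cases e : c' = c
      · rw [e]; exact h
      · exact hp c' e
  have hbox := isCompact_Icc.eventually_forall_of_forall_eventually (x₀ := ((W₀, 0) : ℂ × ℂ))
    (P := fun (z : ℂ × ℂ) (u : ℝ) => ((z.1, pt u + z.2) ∈ E.Om ↔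
      ∀ c, ¬ Sl (X (o c) z.1) (pt u + z.2))) (K := Icc a₁ a₂) (fun u hu => by
      have hc : ContinuousAt (fun z : (ℂ × ℂ) × ℝ => (z.1.1, pt z.2 + z.1.2)) ((W₀, 0), u) := by
        fun_prop
      have h5 := hev u hu
      rw [← add_zero (pt u)] at h5
      exact hc.eventually h5)
  obtain ⟨δ, hδ, hbox⟩ := Metric.eventually_nhds_iff.1 hbox
  obtain ⟨ρ₁, hρ₁, k1⟩ := exists_pos_le (fun c => ρ (o c)) fun c => hρ _ (hoS c)
  obtain ⟨ρ₂, hρ₂, k2⟩ := exists_pos_le
    (fun c : {c : Fin n × Fin n // c.1 < c.2} => (o c.1.2 - o c.1.1) / 4) fun c => by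
      have := o.strictMono c.2
      linarith
  obtain ⟨r, hr, k3⟩ := exists_pos_le ![ρ₁, ρ₂, δ / 2, a₁ - E.α, E.β - a₂, T - E.b₁] (by
    have := hP.2.1
    intro i; fin_cases i <;> simp <;> linarith)
  have r1 : r ≤ ρ₁ := k3 0
  have r2 : r ≤ ρ₂ := k3 1
  have r3 : r ≤ δ / 2 := k3 2
  have r4 : r ≤ a₁ - E.α := k3 3
  have r5 : r ≤ E.β - a₂ := k3 4
  have r6 : r ≤ T - E.b₁ := k3 5
  choose s hs _ hone' using fun c =>
    (hone _ (hoS c)).mono (hσ _ (hoS c)) hr (r1.trans (k1 c))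
  obtain ⟨s₁, hs₁, k4⟩ := exists_pos_le s hs
  obtain ⟨s₂, hs₂, k5⟩ := Metric.isOpen_iff.1 hM.ok.op W₀ hP.1
  have hb01 := hM.ok.lt
  refine ⟨min s₁ (min s₂ δ), r, n, fun c => X (o c), fun c => Φ (o c), fun c => Δ (o c),
    lt_min hs₁ (lt_min hs₂ hδ), hr,
    (ball_subset_ball ((min_le_right _ _).trans (min_le_left _ _))).trans k5,
    ⟨by linarith, by linarith, by linarith⟩, fun c => ?_, fun c c' hc => ?_, fun c => ?_, ?_⟩
  · rw [hX0]; exact ⟨rfl, (hoS c).1⟩
  · rw [hX0, hX0]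
    have := k2 ⟨(c, c'), hc⟩
    change o c + 4 * r ≤ o c'
    change ρ₂ ≤ (o c' - o c) / 4 at this
    linarith
  · rw [hX0]; exact (hone' c).shrink ((min_le_left _ _).trans (k4 c))
  · intro W hW
    have hWδ : dist W W₀ < δ :=
      (mem_ball.1 hW).trans_le ((min_le_right _ _).trans (min_le_right _ _))
    have up : ∀ x : ℂ, a₁ - r < x.re → x.re < a₂ + r → T - r < x.im → x.im < T + r →
        ((W, x) ∈ E.Om ↔ ∀ c, ¬ Sl (X (o c) W) x) := by
      intro x x1 x2 x3 x4
      let u := max a₁ (min x.re a₂)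
      have hu : u ∈ Icc a₁ a₂ := ⟨le_max_left _ _, max_le h12 (min_le_right _ _)⟩
      have hxu : |x.re - u| < r := by
        rw [abs_lt]
        constructor
        · have : u < x.re + r := max_lt (by linarith) (min_lt_of_left_lt (by linarith))
          linarith
        · have : x.re - r < u := lt_max_of_lt_right (lt_min (by linarith) (by linarith))
          linarith
      have hd : dist ((W, x - pt u) : ℂ × ℂ) (W₀, 0) < δ := by
        rw [Prod.dist_eq]
        refine max_lt hWδ ?_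
        rw [dist_zero_right]
        have h6 : |(x - pt u).im| < r := abs_lt.2 ⟨by simp [pt]; linarith, by simp [pt]; linarith⟩
        have h7 : |(x - pt u).re| < r := hxu
        linarith [norm_le_abs_re_add_abs_im (x - pt u)]
      have := hbox hd u hu
      rwa [add_sub_cancel] at this
    have low : ∀ c, T - r / 2 < (X (o c) W).im := by
      intro c
      have h8 := (hone' c).near W (ball_subset_ball ((min_le_left _ _).trans (k4 c)) hW)
      have h9 := (abs_le.1 (abs_im_le_norm (X (o c) W - pt (o c)))).1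
      rw [sub_im] at h9
      change -_ ≤ _ - T at h9
      linarith
    intro x hx
    obtain ⟨x1, x2, x3, x4⟩ := hx
    by_cases hh : T - r / 2 < x.im
    · exact up x x1 x2 (by linarith) x4
    · rw [not_lt] at hh
      refine ⟨fun _ c hs => ?_, fun _ => ?_⟩
      · linarith [hs.2, low c]
      · have := (up ⟨x.re, T - r / 2⟩ x1 x2 (by change T - r < T - r / 2; linarith)
          (by change T - r / 2 < T + r; linarith)).2 fun c hs => by
            have h10 : (X (o c) W).im ≤ T - r / 2 := hs.2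
            linarith [low c]
        exact dn _ this x rfl x3 hh

end Vale.Agent.P097F.D
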