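import Vale.Agent.P097F.D.Defs

/-!
# P097F.D: raising a box (row 6504)
-/

set_option linter.all false

noncomputable section

namespace Vale.Agent.P097F.D

open Set Metric Filter Topology Complex Vale.Agent.P097D

namespace UpA

theorem rc_op (a b s t : ℝ) : IsOpen (Rc a b s t) :=
  (isOpen_lt continuous_const continuous_re).inter ((isOpen_lt continuous_re continuous_const).inter
    ((isOpen_lt continuous_const continuous_im).inter (isOpen_lt continuous_im continuous_const)))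

theorem rc_cv (a b s t : ℝ) : Convex ℝ (Rc a b s t) :=
  (convex_halfSpace_re_gt a).inter ((convex_halfSpace_re_lt b).inter
    ((convex_halfSpace_im_gt s).inter (convex_halfSpace_im_lt t)))

theorem vv_eq {f f' : ℂ × ℂ → ℂ} {p : ℂ × ℂ} (h : f =ᶠ[𝓝 p] f') : vv f p = vv f' p := by
  have h1 : Tendsto (fun x : ℂ => (p.1, x)) (𝓝 p.2) (𝓝 p) :=
    (continuous_const.prodMk continuous_id).tendsto' _ _ rfl
  have h2 : (fun x => f (p.1, x)) =ᶠ[𝓝 p.2] fun x => f' (p.1, x) := h1.eventually h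
  unfold vv dx
  rw [h2.deriv_eq]

theorem an2 {f : ℂ × ℂ → ℂ} {W x : ℂ} (h : AnalyticAt ℂ f (W, x)) :
    AnalyticAt ℂ (fun x => f (W, x)) x :=
  h.comp_of_eq (analyticAt_const.prod analyticAt_id) rfl

/-- the identity theorem from a lower rectangle -/
theorem ident {f f' : ℂ → ℂ} {a b s h t : ℝ} (hs : s < h) (ht : h ≤ t)
    (hf : AnalyticOnNhd ℂ f (Rc a b s t)) (hf' : AnalyticOnNhd ℂ f' (Rc a b s t))
    (e : ∀ x ∈ Rc a b s h, f x = f' x) : ∀ x ∈ Rc a b s t, f x = f' x := fun x hx => by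
  have h1 : (⟨x.re, (s + h) / 2⟩ : ℂ) ∈ Rc a b s h :=
    ⟨hx.1, hx.2.1, by show s < (s + h) / 2; linarith, by show (s + h) / 2 < h; linarith⟩
  exact hf.eqOn_of_preconnected_of_eventuallyEq hf' (rc_cv a b s t).isPreconnected
    (show (⟨x.re, (s + h) / 2⟩ : ℂ) ∈ Rc a b s t from
      ⟨h1.1, h1.2.1, h1.2.2.1, h1.2.2.2.trans_le ht⟩)
    (eventually_of_mem ((rc_op a b s h).mem_nhds h1) e) hx

end UpA

open UpA in
theorem up (hO : S_OM) : S_UP := by
  intro E Y F V a b s h t M hV hs hh ht hΩ hF hFY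
  obtain ⟨-, o2, -, o4⟩ := hO E M.ok
  have d0 : ∀ W ∈ V, ∀ x ∈ Rc a b E.b₀ h, (W, x) ∈ E.Om := fun W hW x hx => by
    have h1 : max s x.im < h := max_lt hh hx.2.2.2
    have h2 := le_max_left s x.im
    have h3 := le_max_right s x.im
    exact o2 (W, ⟨x.re, (max s x.im + h) / 2⟩) (hΩ ⟨hW, hx.1, hx.2.1,
      by show s < (max s x.im + h) / 2; linarith, by show (max s x.im + h) / 2 < h; linarith⟩) x rfl
      hx.2.2.1 (by show x.im ≤ (max s x.im + h) / 2; linarith)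
  have d1 : ∀ W ∈ V, ∀ x : ℂ, a < x.re → x.re < b → W ∈ E.U ∧ E.α < x.re ∧ x.re < E.β :=
    fun W hW x h1 h2 => by
      have := o4 (W, ⟨x.re, (s + h) / 2⟩) (hΩ ⟨hW, h1, h2,
        by show s < (s + h) / 2; linarith, by show (s + h) / 2 < h; linarith⟩)
      exact ⟨this.1, this.2.1, this.2.2.1⟩
  set G : ℂ × ℂ → ℂ := fun q => if q.2.im < h then Y q else F q with hG
  have ci : Continuous fun q : ℂ × ℂ => q.2.im := continuous_im.comp continuous_snd
  have g1 : ∀ q : ℂ × ℂ, q.2.im < h → G =ᶠ[𝓝 q] Y := fun q hq =>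
    eventually_of_mem ((isOpen_lt ci continuous_const).mem_nhds hq) fun q' hq' => if_pos hq'
  have g2 : ∀ q ∈ V ×ˢ Rc a b s t, G =ᶠ[𝓝 q] F := fun q hq =>
    eventually_of_mem ((hV.prod (rc_op a b s t)).mem_nhds hq) fun q' hq' => by
      by_cases k : q'.2.im < h
      · exact (if_pos k).trans (hFY q' ⟨hq'.1, hq'.2.1, hq'.2.2.1, hq'.2.2.2.1, k⟩).symm
      · exact if_neg k
  have g3 : ∀ q ∈ V ×ˢ Rc a b E.b₀ t,
      AnalyticAt ℂ G q ∧ (G q).im < 0 ∧ Law E.g q.1 (G q) (vv G q) := fun q hq => by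
    by_cases k : q.2.im < h
    · have m : q ∈ E.Om := d0 q.1 hq.1 q.2 ⟨hq.2.1, hq.2.2.1, hq.2.2.2.1, k⟩
      rw [vv_eq (g1 q k), (g1 q k).eq_of_nhds]
      exact ⟨(M.fam.an q m).congr (g1 q k).symm, M.fam.lo q m, M.fam.law q m⟩
    · have m : q ∈ V ×ˢ Rc a b s t :=
        ⟨hq.1, hq.2.1, hq.2.2.1, hh.trans_le (not_lt.1 k), hq.2.2.2.2⟩
      rw [vv_eq (g2 q m), (g2 q m).eq_of_nhds]
      exact ⟨(hF.an q m).congr (g2 q m).symm, hF.lo q m, hF.law q m⟩
  have g4 : ∀ W ∈ V, ∀ x ∈ Rc a b E.b₀ (min t E.b₁), G (W, x) = E.A (W, x) := fun W hW =>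
    ident (f := fun x => G (W, x)) (f' := fun x => E.A (W, x)) (h := min h E.b₁)
      (lt_min (hs.trans_lt hh) M.ok.lt) (min_le_min_right _ ht)
      (fun x hx => an2 (g3 (W, x) ⟨hW, hx.1, hx.2.1, hx.2.2.1,
        hx.2.2.2.trans_le (min_le_left _ _)⟩).1)
      (fun x hx => an2 (M.ok.fam.an (W, x) ⟨(d1 W hW x hx.1 hx.2.1).1, (d1 W hW x hx.1 hx.2.1).2.1,
        (d1 W hW x hx.1 hx.2.1).2.2, hx.2.2.1, hx.2.2.2.trans_le (min_le_right _ _)⟩))
      fun x hx => by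
        have k : x.im < h := hx.2.2.2.trans_le (min_le_left _ _)
        exact (if_pos k).trans (M.eq (W, x) (d0 W hW x ⟨hx.1, hx.2.1, hx.2.2.1, k⟩)
          (hx.2.2.2.trans_le (min_le_right _ _)))
  have main : V ×ˢ Rc a b E.b₀ t ⊆ E.Om := fun p hp => by
    obtain ⟨ε, ε0, hε⟩ := Metric.isOpen_iff.1 hV p.1 hp.1
    obtain ⟨-, k1, k2⟩ := d1 p.1 hp.1 p.2 hp.2.1 hp.2.2.1
    obtain ⟨-, p1, p2, p3, p4⟩ := id hp
    obtain ⟨e, e0, e1, e2, e3, e4, e5, e6⟩ : ∃ e > 0, e ≤ ε ∧ e ≤ p.2.re - a ∧ e ≤ b - p.2.re ∧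
        e ≤ t - p.2.im ∧ e ≤ p.2.re - E.α ∧ e ≤ E.β - p.2.re :=
      ⟨min (min ε (min (p.2.re - a) (b - p.2.re)))
        (min (t - p.2.im) (min (p.2.re - E.α) (E.β - p.2.re))),
        lt_min (lt_min ε0 (lt_min (by linarith) (by linarith)))
          (lt_min (by linarith) (lt_min (by linarith) (by linarith))),
        (min_le_left _ _).trans (min_le_left _ _),
        (min_le_left _ _).trans ((min_le_right _ _).trans (min_le_left _ _)),
        (min_le_left _ _).trans ((min_le_right _ _).trans (min_le_right _ _)),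
        (min_le_right _ _).trans (min_le_left _ _),
        (min_le_right _ _).trans ((min_le_right _ _).trans (min_le_left _ _)),
        (min_le_right _ _).trans ((min_le_right _ _).trans (min_le_right _ _))⟩
    have c1 : E.Col p e ⊆ V ×ˢ Rc a b E.b₀ t := fun q hq => by
      obtain ⟨q0, q1, q2, q3, q4⟩ := hq
      exact ⟨hε (ball_subset_ball e1 q0), by linarith, by linarith, q3, by linarith⟩
    refine ⟨p3, e, e0, fun W hW => (d1 W (hε (ball_subset_ball e1 hW)) p.2 p1 p2).1, by linarith,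
      by linarith, G, ⟨fun q hq => (g3 q (c1 hq)).1, fun q hq => (g3 q (c1 hq)).2.1,
        fun q hq => (g3 q (c1 hq)).2.2⟩, fun q hq k => ?_⟩
    obtain ⟨q0, q1, q2, q3, q4⟩ := c1 hq
    exact g4 q.1 q0 q.2 ⟨q1, q2, q3, lt_min q4 k⟩
  refine ⟨main, fun p hp => ?_⟩
  exact ident (f := fun x => F (p.1, x)) (f' := fun x => Y (p.1, x)) hh ht
    (fun x hx => an2 (hF.an (p.1, x) ⟨hp.1, hx⟩))
    (fun x hx => an2 (M.fam.an (p.1, x)
      (main ⟨hp.1, hx.1, hx.2.1, hs.trans_lt hx.2.2.1, hx.2.2.2⟩)))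
    (fun x hx => hFY (p.1, x) ⟨hp.1, hx⟩) p.2 hp.2

end Vale.Agent.P097F.D
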