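import Vale.Agent.P097F.D.Asm
import Vale.Agent.P097F.D.Sg
import Vale.Agent.P097F.D.Prim
import Vale.Agent.P097F.D.Om
import Vale.Agent.P097F.D.Up
import Vale.Agent.P097F.D.Reg
import Vale.Agent.P097F.D.Box
import Vale.Agent.P097F.D.Cont
import Vale.Agent.P097F.D.Clus
import Vale.Agent.P097F.D.Sch
import Vale.Agent.P097F.D.Chf
import Vale.Agent.P097F.D.Bot
import Vale.Agent.P097F.D.Sing
import Vale.Agent.P097F.D.Str
import Vale.Agent.P097F.D.Lev

/-!
# P097F.D: the finite list of obstacles (all rows, closed forms)
-/

namespace Vale.Agent.P097F.D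

theorem upC : S_UP := up om

theorem regC : S_REG := reg sgS

theorem boxC : S_BOX := box sgS prim regC

theorem contC : S_CONT := cont om upC boxC

theorem halfC : S_HALF := half om sgS regC contC

theorem clusC : S_CLUS := clusS om sgS regC contC

theorem schC : S_SCH := sch prim

theorem chfC : S_CHF := chf sgS sqS regC

theorem botC : S_BOT := bot om sqS regC schC

theorem singC : S_SING := sing om upC chfC botC

theorem strC : S_STR := str om clusC singC

theorem levC : S_LEV := lev strC

theorem obs : Spec_OBS := obs_of glue halfC nex levC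

end Vale.Agent.P097F.D
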