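import Vale.Agent.P097F.D.Defs

/-!
# P097F.D: assembly of the output of the block from the rows
-/

set_option linter.all false

namespace Vale.Agent.P097F.D

open Set Metric Filter Topology Complex Vale.Agent.P097D

theorem obs_of (hG : S_GLUE) (hH : S_HALF) (hN : S_NEX) (hL : S_LEV) : Spec_OBS := by
  intro E ok sz
  obtain ⟨Y, hY⟩ := hG E ok
  refine ⟨Y, hY, fun T Z a₁ a₂ h1 h2 h3 => ?_⟩
  obtain ⟨N, cN, hN'⟩ := hL E Y T a₁ a₂ hY sz h1 h2 h3
  refine ⟨N ∪ (fun W : ℝ => (W : ℂ)) ⁻¹' {W : ℂ | ¬ NE E.g W},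
    cN.union ((hN E.g ok.ang).preimage Complex.ofReal_injective), fun W hW hv => ?_⟩
  have ne : NE E.g W := by
    by_contra hc
    exact hW (Or.inr hc)
  have hf := hH E Y W (T W) (Z W) hY ne hv
  refine ⟨hf, fun ⟨τ, τ0, B, hB⟩ => hN' W (fun hc => hW (Or.inl hc))
    ⟨hv.1, hv.2.1, ne, fun x hx => (hf x hx).1, τ, τ0, B, fun x hx => ?_⟩⟩
  have op : IsOpen (Rc E.α E.β E.b₀ (T W)) :=
    (isOpen_lt continuous_const continuous_re).inter ((isOpen_lt continuous_re continuous_const).inter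
      ((isOpen_lt continuous_const continuous_im).inter (isOpen_lt continuous_im continuous_const)))
  have hx' : x ∈ Rc E.α E.β E.b₀ (T W) := ⟨hx.1, hx.2.1, ok.lt.trans hx.2.2.1, hx.2.2.2⟩
  have ev : (fun x => Y (W, x)) =ᶠ[𝓝 x] Z W := by
    filter_upwards [op.mem_nhds hx'] with z hz using (hf z hz).2
  have e : de E.g Y (W, x) = W * E.g (Z W x) * deriv (Z W) x / 2 := by
    simp only [de, vv, dx]
    rw [ev.deriv_eq, (hf x hx').2]
    ring
  rw [e, (hf x hx').2]
  exact hB x hx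

end Vale.Agent.P097F.D
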