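import Vale.Agent.P097F.D.Out

/-!
# P097F.D: off a countable set the list is level and the slopes are different or linked
-/

set_option linter.all false

noncomputable section

namespace Vale.Agent.P097F.D

open Set Metric Filter Topology Complex Vale.Agent.P097D

/-- slopes are different or the obstacles are linked -/
def Alt (W : ℂ) (σ : ℝ) {n : ℕ} (X : Fin n → ℂ → ℂ) : Prop := ∀ c c',
  deriv (fun w => (X c' w - X c w) / w) W ≠ 0 ∨ ∃ κ : ℂ, ∀ w ∈ ball W σ, X c' w - X c w = κ * w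

theorem l2_sl {E : Dat} {Y : ℂ × ℂ → ℂ} {W₀ x₀ W₁ x₁ u : ℂ} {σ ρ σ' ρ' : ℝ} {X X' : ℂ → ℂ}
    {Φ Δ Φ' Δ' : ℂ × ℂ → ℂ} (h : One E Y W₀ x₀ σ ρ X Φ Δ) (hρ : 0 < ρ)
    (hb : E.b₀ ≤ x₀.im - ρ) (h' : One E Y W₁ x₁ σ' ρ' X' Φ' Δ') (hρ' : 0 < ρ')
    (hb' : E.b₀ ≤ x₁.im - ρ') (hu : u ∈ ball W₀ σ) (hu' : u ∈ ball W₁ σ') (he : X u = X' u) :
    ∀ᶠ W in 𝓝 u, Sl (X W) (X' W) := by
  have h1 : ∀ᶠ W in 𝓝 u, X' W ∈ Rc (x₀.re - ρ) (x₀.re + ρ) E.b₀ (x₀.im + ρ) :=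
    (h'.an u hu').continuousAt.eventually
      ((rc_open _ _ _ _).mem_nhds (he ▸ lev_rc h hρ hb hu))
  filter_upwards [h1, isOpen_ball.mem_nhds hu, isOpen_ball.mem_nhds hu'] with W a b c
  by_contra hn
  exact lev_not h' hρ' hb' c ((h.om W b _ a).2 hn)

theorem l2_alt {N : ℂ → ℂ} {W₀ : ℝ} (hN : AnalyticAt ℂ N W₀) :
    ∀ᶠ u : ℝ in 𝓝[≠] W₀, deriv N u ≠ 0 ∨ ∃ κ : ℂ, ∀ᶠ w in 𝓝 (u : ℂ), N w = κ := by
  have c0 : ContinuousAt (fun u : ℝ => (u : ℂ)) W₀ := Complex.continuous_ofReal.continuousAt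
  rcases hN.deriv.eventually_eq_zero_or_eventually_ne_zero with k | k
  · obtain ⟨r, r0, hr⟩ := Metric.eventually_nhds_iff_ball.1 (k.and hN.eventually_analyticAt)
    have e : ∀ᶠ w in 𝓝 (W₀ : ℂ), N w = N W₀ := by
      filter_upwards [ball_mem_nhds _ r0] with w hw
      exact isOpen_ball.is_const_of_deriv_eq_zero (convex_ball _ r).isPreconnected
        (fun x b => (hr x b).2.differentiableAt.differentiableWithinAt)
        (fun x b => (hr x b).1) hw (mem_ball_self r0)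
    exact ((c0.eventually e.eventually_nhds).filter_mono nhdsWithin_le_nhds).mono
      fun u h => Or.inr ⟨_, h⟩
  · have t : Tendsto (fun u : ℝ => (u : ℂ)) (𝓝[≠] W₀) (𝓝[≠] (W₀ : ℂ)) :=
      tendsto_nhdsWithin_iff.2 ⟨c0.tendsto.mono_left nhdsWithin_le_nhds,
        eventually_nhdsWithin_of_forall fun u hu e => hu (Complex.ofReal_injective e)⟩
    exact (t.eventually k).mono fun u h => Or.inl h

/-- the obstacles at a nearby step are germs of the obstacles at `W₀` -/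
theorem l2_germ {E : Dat} {Y : ℂ × ℂ → ℂ} {W₀ u : ℂ} {T T' a₁ a₂ σ ρ σ' ρ' : ℝ} {n n' : ℕ}
    {X : Fin n → ℂ → ℂ} {Φ Δ : Fin n → ℂ × ℂ → ℂ} {X' : Fin n' → ℂ → ℂ}
    {Φ' Δ' : Fin n' → ℂ × ℂ → ℂ} (ok : E.Ok) (hO : Obs E Y W₀ T a₁ a₂ σ ρ n X Φ Δ)
    (hO' : Obs E Y u T' a₁ a₂ σ' ρ' n' X' Φ' Δ') (hB : u ∈ ball W₀ σ) (c₀ : Fin n)
    (hin : ∀ x ∈ Rc E.α E.β E.b₀ T', (u, x) ∈ E.Om) (c' : Fin n') :
    ∃ c, (X c u).im = T' ∧ X' c' =ᶠ[𝓝 u] X c := by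
  have hlt := ok.lt
  have hb : ∀ c, E.b₀ ≤ (X c W₀).im - ρ := fun c => by
    rw [(hO.top c).1]; linarith [hO.lim.2.2]
  have hb' : ∀ c, E.b₀ ≤ (X' c u).im - ρ' := fun c => by
    rw [(hO'.top c).1]; linarith [hO'.lim.2.2]
  have hρ := hO.ρ0
  have hρ' := hO'.ρ0
  have hT : ∀ c, T' ≤ (X c u).im := hO.ge ok hB fun x hx =>
    hin x ⟨hO.lim.1.trans_lt hx.1, hx.2.1.trans_le hO.lim.2.1, hx.2.2⟩
  have hT' : T' < T + ρ := by
    have := (abs_lt.1 (hO.pos hB c₀).2).2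
    linarith [hT c₀]
  have hu' : u ∈ ball u σ' := mem_ball_self hO'.σ0
  obtain ⟨t0, t1, t2⟩ := hO'.top c'
  have hm : X' c' u ∈ Rc (a₁ - ρ) (a₂ + ρ) E.b₀ (T + ρ) :=
    ⟨by linarith, by linarith, by linarith [hb' c'], by linarith⟩
  have hno := lev_not (hO'.one c') hρ' (hb' c') hu'
  rw [hO.om u hB _ hm] at hno
  simp only [not_forall, not_not] at hno
  obtain ⟨c, hre, him⟩ := hno
  have hi : (X c u).im = T' := le_antisymm (t0 ▸ him) (hT c)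
  have he : X c u = X' c' u := Complex.ext hre.symm (hi.trans t0.symm)
  refine ⟨c, hi, ?_⟩
  filter_upwards [l2_sl (hO.one c) hρ (hb c) (hO'.one c') hρ' (hb' c') hB hu' he,
    l2_sl (hO'.one c') hρ' (hb' c') (hO.one c) hρ (hb c) hu' hB he.symm] with W a b
  exact Complex.ext a.1 (le_antisymm b.2 a.2)

theorem lev2 {E : Dat} {Y : ℂ × ℂ → ℂ} (T : ℝ → ℝ) {a₁ a₂ : ℝ} (hM : Mx E Y) (hZ : SZ E.g)
    (h1 : E.α < a₁) (h2 : a₁ ≤ a₂) (h3 : a₂ < E.β) : ∃ N : Set ℝ, N.Countable ∧ ∀ W : ℝ, W ∉ N →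
    Cp E Y W (T W) →
      ∃ σ ρ n X Φ Δ, Obs E Y W (T W) a₁ a₂ σ ρ n X Φ Δ ∧ Lev W σ X ∧ Alt W σ X := by
  refine ⟨{W : ℝ | Cp E Y W (T W) ∧
    ¬ ∃ σ ρ n X Φ Δ, Obs E Y W (T W) a₁ a₂ σ ρ n X Φ Δ ∧ Lev W σ X ∧ Alt W σ X}, ?_,
    fun W hW hC => by by_contra hn; exact hW ⟨hC, hn⟩⟩
  refine lev_count _ ?_
  rintro W₀ ⟨hC, hN⟩
  obtain ⟨σ, ρ, n, X, Φ, Δ, hO⟩ := cSTR E Y W₀ _ a₁ a₂ hM hZ hC h1 h2 h3
  have hc₀ : Nonempty (Fin n) := by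
    by_contra hn
    exact hN ⟨σ, ρ, n, X, Φ, Δ, hO, fun c => absurd ⟨c⟩ hn, fun c => absurd ⟨c⟩ hn⟩
  obtain ⟨c₀⟩ := hc₀
  have m0 : (W₀ : ℂ) ∈ ball (W₀ : ℂ) σ := mem_ball_self hO.σ0
  have hA : ∀ᶠ u : ℝ in 𝓝[≠] W₀, ∀ c c', (X c u - X c' u).im = 0 →
      ∀ᶠ v : ℝ in 𝓝 u, (X c v - X c' v).im = 0 := by
    simp only [eventually_all]
    exact fun c c' => lev_alt (f := fun W => X c W - X c' W)
      (((hO.one c).an _ m0).sub ((hO.one c').an _ m0))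
  have hD : ∀ᶠ u : ℝ in 𝓝[≠] W₀, ∀ c c', deriv (fun w => (X c' w - X c w) / w) u ≠ 0 ∨
      ∃ κ : ℂ, ∀ᶠ w in 𝓝 (u : ℂ), (X c' w - X c w) / w = κ := by
    simp only [eventually_all]
    exact fun c c' => l2_alt (N := fun w => (X c' w - X c w) / w)
      ((((hO.one c').an _ m0).sub ((hO.one c).an _ m0)).div analyticAt_id (hM.ok.ne _ (hO.sub m0)))
  have hB : ∀ᶠ u : ℝ in 𝓝[≠] W₀, (u : ℂ) ∈ ball (W₀ : ℂ) σ :=
    (Complex.continuous_ofReal.continuousAt.eventually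
      (isOpen_ball.mem_nhds m0)).filter_mono nhdsWithin_le_nhds
  filter_upwards [hA, hD, hB] with u hA hD hB
  rintro ⟨hC', hN'⟩
  obtain ⟨σ', ρ', n', X', Φ', Δ', hO'⟩ := cSTR E Y u _ a₁ a₂ hM hZ hC' h1 h2 h3
  choose φ hφ hφ' using l2_germ hM.ok hO hO' hB c₀ hC'.2.2.2.1
  have cu : Tendsto (fun v : ℝ => (v : ℂ)) (𝓝 u) (𝓝 (u : ℂ)) :=
    Complex.continuous_ofReal.continuousAt
  have hall : ∀ᶠ v : ℝ in 𝓝 u, ∀ c c', (X' c v).im = (X' c' v).im := by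
    simp only [eventually_all]
    intro c c'
    filter_upwards [cu.eventually (hφ' c), cu.eventually (hφ' c'),
      hA (φ c) (φ c') (by rw [sub_im, hφ, hφ, sub_self])] with v a b d
    rw [sub_im, sub_eq_zero] at d
    rw [a, b, d]
  obtain ⟨e, he, hb2⟩ := Metric.eventually_nhds_iff.1 hall
  have o := hO'.shrink (lt_min he hO'.σ0) (min_le_right _ _)
  refine hN' ⟨min e σ', ρ', n', X', Φ', Δ', o, fun c c' v hv => hb2 ?_ c c', fun c c' => ?_⟩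
  · have := (mem_ball.1 hv).trans_le (min_le_left _ _)
    rwa [Complex.dist_of_im_eq (by simp), ofReal_re, ofReal_re] at this
  · have eq : (fun w => (X' c' w - X' c w) / w) =ᶠ[𝓝 (u : ℂ)]
        fun w => (X (φ c') w - X (φ c) w) / w := by
      filter_upwards [hφ' c, hφ' c'] with w a b
      rw [a, b]
    rcases hD (φ c) (φ c') with d | ⟨κ, d⟩
    · exact Or.inl (eq.deriv_eq ▸ d)
    · refine Or.inr ⟨κ, AnalyticOnNhd.eqOn_of_preconnected_of_eventuallyEq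
        (f := fun w => X' c' w - X' c w) (g := fun w => κ * w) (((o.one c').an).sub (o.one c).an)
        (fun w _ => analyticAt_const.mul analyticAt_id) (convex_ball _ _).isPreconnected
        (mem_ball_self o.σ0) ?_⟩
      filter_upwards [eq, d, isOpen_ne.mem_nhds (hM.ok.ne _ hC'.1)] with w a b w0
      have w0 : w ≠ 0 := w0
      rw [← b, ← a]; field_simp

end Vale.Agent.P097F.D
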