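import Vale.Agent.P097F.D.Defs

/-!
# P097F.D: shrinking the boxes of the obstacles
-/

noncomputable section

namespace Vale.Agent.P097F.D

open Set Metric Filter Topology Complex Vale.Agent.P097D

theorem Ch.mono {g : ℂ → ℂ} {V V' : Set ℂ} {r r' : ℝ} {Φ Δ : ℂ × ℂ → ℂ} (h : Ch g V r Φ Δ)
    (hV : V' ⊆ V) (hr : r' ≤ r) : Ch g V' r' Φ Δ := by
  have s : V' ×ˢ ball (0 : ℂ) r' ⊆ V ×ˢ ball (0 : ℂ) r := prod_mono hV (ball_subset_ball hr)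
  exact ⟨h.anΦ.mono s, h.anΔ.mono s, fun q hq => h.lo q (s hq), fun q hq => h.inv q (s hq),
    fun q hq => h.ode q (s hq), h.ty.imp (fun a W hW => a W (hV hW)) fun a W hW => a W (hV hW)⟩

variable {E : Dat} {Y : ℂ × ℂ → ℂ} {W₀ x₀ : ℂ} {σ ρ : ℝ} {X : ℂ → ℂ} {Φ Δ : ℂ × ℂ → ℂ}

theorem One.shrink (h : One E Y W₀ x₀ σ ρ X Φ Δ) {σ' : ℝ} (hσ : σ' ≤ σ) :
    One E Y W₀ x₀ σ' ρ X Φ Δ := by
  have s : ball W₀ σ' ⊆ ball W₀ σ := ball_subset_ball hσ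
  exact ⟨h.an.mono s, h.at₀, fun W hW => h.near W (s hW), fun W hW => h.om W (s hW),
    h.ch.mono s le_rfl, fun W hW => h.loc W (s hW)⟩

theorem One.mono (h : One E Y W₀ x₀ σ ρ X Φ Δ) (hσ : 0 < σ) {ρ' : ℝ} (h0 : 0 < ρ')
    (hρ : ρ' ≤ ρ) : ∃ σ' > 0, σ' ≤ σ ∧ One E Y W₀ x₀ σ' ρ' X Φ Δ := by
  have hc : ContinuousAt X W₀ := (h.an W₀ (mem_ball_self hσ)).continuousAt
  obtain ⟨δ, hδ, hd⟩ := Metric.continuousAt_iff.1 hc (ρ' / 8) (by positivity)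
  have s : ball W₀ (min δ σ) ⊆ ball W₀ σ := ball_subset_ball (min_le_right _ _)
  refine ⟨min δ σ, lt_min hδ hσ, min_le_right _ _, h.an.mono s, h.at₀, fun W hW => ?_,
    fun W hW x hx => h.om W (s hW) x ?_, h.ch.mono s ?_, fun W hW x hx => h.loc W (s hW) x ?_⟩
  · have := hd ((mem_ball.1 hW).trans_le (min_le_left _ _))
    rwa [h.at₀, dist_eq_norm] at this
  · obtain ⟨h1, h2, h3, h4⟩ := hx
    exact ⟨by linarith, by linarith, h3, by linarith⟩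
  · exact mul_le_mul_of_nonneg_left (Real.sqrt_le_sqrt hρ) (by norm_num)
  · obtain ⟨h1, h2, h3, h4⟩ := hx
    exact ⟨by linarith, by linarith, by linarith, by linarith⟩

theorem Obs.shrink {T a₁ a₂ : ℝ} {n : ℕ} {X : Fin n → ℂ → ℂ} {Φ Δ : Fin n → ℂ × ℂ → ℂ}
    (h : Obs E Y W₀ T a₁ a₂ σ ρ n X Φ Δ) {σ' : ℝ} (h0 : 0 < σ') (hσ : σ' ≤ σ) :
    Obs E Y W₀ T a₁ a₂ σ' ρ n X Φ Δ := by
  have s : ball W₀ σ' ⊆ ball W₀ σ := ball_subset_ball hσ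
  exact ⟨h0, h.ρ0, s.trans h.sub, h.lim, h.top, h.sep, fun c => (h.one c).shrink hσ,
    fun W hW => h.om W (s hW)⟩

end Vale.Agent.P097F.D
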