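import Vale.Agent.P097F.D.Lev2
import Vale.Agent.P097F.Defs

/-! # P097F: the list of obstacles in the form used by the circle machine -/

set_option linter.all false

namespace Vale.Agent.P097F

open Set

theorem obs2 : Spec_OBS2 := by
  intro E ok sz
  obtain ⟨Y, hY⟩ := D.glue E ok
  refine ⟨Y, hY, fun T Z a₁ a₂ h1 h2 h3 => ?_⟩
  obtain ⟨N, cN, hN⟩ := D.lev2 T hY sz h1 h2 h3
  refine ⟨N ∪ (fun W : ℝ => (W : ℂ)) ⁻¹' {W : ℂ | ¬ D.NE E.g W},
    cN.union ((D.nex E.g ok.ang).preimage Complex.ofReal_injective), fun W hW hv => ?_⟩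
  have ne : D.NE E.g W := by
    by_contra hc
    exact hW (Or.inr hc)
  exact ⟨D.cHALF E Y W (T W) (Z W) hY ne hv, fun hb =>
    hN W (fun hc => hW (Or.inl hc)) (D.cp_of hY ne hv hb)⟩

end Vale.Agent.P097F
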