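import Vale.Agent.P097F.D.Sg
import Vale.Agent.P097F.D.Prim
import Vale.Agent.P097F.D.Om
import Vale.Agent.P097F.D.Up
import Vale.Agent.P097F.D.Reg
import Vale.Agent.P097F.D.Box
import Vale.Agent.P097F.D.Cont
import Vale.Agent.P097F.D.Clus
import Vale.Agent.P097F.D.Sch
import Vale.Agent.P097F.D.Chf
import Vale.Agent.P097F.D.Bot
import Vale.Agent.P097F.D.Sing
import Vale.Agent.P097F.D.Str
import Vale.Agent.P097F.D.Lev
import Vale.Agent.P097F.D.Sel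

/-!
# P097F.D: closed forms of the rows and the selection theorem
-/

set_option linter.all false

noncomputable section

namespace Vale.Agent.P097F.D

open Set Metric Filter Topology Complex Vale.Agent.P097D

theorem cREG : S_REG := reg sgS

theorem cUP : S_UP := up om

theorem cCONT : S_CONT := cont om cUP (box sgS prim cREG)

theorem cHALF : S_HALF := half om sgS cREG cCONT

theorem cCHF : S_CHF := chf sgS sqS cREG

theorem cSING : S_SING := sing om cUP cCHF (bot om sqS cREG (sch prim))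

theorem cSTR : S_STR := str om (clusS om sgS cREG cCONT) cSING

variable {E : Dat} {Y : ℂ × ℂ → ℂ}

theorem nl_of {W₀ : ℂ} {T a₁ a₂ σ ρ : ℝ} {n : ℕ} {X : Fin n → ℂ → ℂ} {Φ Δ : Fin n → ℂ × ℂ → ℂ}
    (o : Obs E Y W₀ T a₁ a₂ σ ρ n X Φ Δ)
    (h : ∀ c c', c ≠ c' → ¬ ∃ κ : ℂ, ∀ w ∈ ball W₀ σ, X c' w - X c w = κ * w) : NL W₀ X := by
  rintro c c' hc ⟨κ, hκ⟩
  refine h c c' hc ⟨κ, ?_⟩
  exact AnalyticOnNhd.eqOn_of_preconnected_of_eventuallyEq (f := fun w => X c' w - X c w)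
    (g := fun w => κ * w) (((o.one c').an).sub (o.one c).an)
    (fun w _ => analyticAt_const.mul analyticAt_id) (convex_ball _ _).isPreconnected
    (mem_ball_self o.σ0) hκ

/-- a bounded leaf has bounded states -/
theorem cp_of (hY : Mx E Y) {W : ℂ} {T : ℝ} {Z : ℂ → ℂ} (ne : NE E.g W) (hv : Lv E W T Z)
    (hb : Bd E W T Z) : Cp E Y W T := by
  have hf := cHALF E Y W T Z hY ne hv
  obtain ⟨τ, τ0, B, hB⟩ := hb
  refine ⟨hv.1, hv.2.1, ne, fun x hx => (hf x hx).1, τ, τ0, B, fun x hx => ?_⟩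
  have hx' : x ∈ Rc E.α E.β E.b₀ T := ⟨hx.1, hx.2.1, hY.ok.lt.trans hx.2.2.1, hx.2.2.2⟩
  have ev : (fun x => Y (W, x)) =ᶠ[𝓝 x] Z := by
    filter_upwards [(rc_open _ _ _ _).mem_nhds hx'] with z hz using (hf z hz).2
  have e : de E.g Y (W, x) = W * E.g (Z x) * deriv Z x / 2 := by
    simp only [de, vv, dx]
    rw [ev.deriv_eq, (hf x hx').2]
    ring
  rw [e, (hf x hx').2]
  exact hB x hx

/-- the list at `W₀` -/
theorem obs0 (hY : Mx E Y) (sz : SZ E.g) {W : ℂ} {T a₁ a₂ : ℝ} {Z : ℂ → ℂ} (ne : NE E.g W)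
    (hv : Lv E W T Z) (hb : Bd E W T Z) (h1 : E.α < a₁) (h2 : a₁ ≤ a₂) (h3 : a₂ < E.β) :
    ∃ σ ρ n X Φ Δ, Obs E Y W T a₁ a₂ σ ρ n X Φ Δ :=
  cSTR E Y W T a₁ a₂ hY sz (cp_of hY ne hv hb) h1 h2 h3

/-- **SELECT for a family of leaves**: arbitrarily near `W₀` there is a step of `TT` whose list
is level, with distinct slopes -/
theorem dsel (hY : Mx E Y) {TT : Set ℝ} {T : ℝ → ℝ} {Z : ℝ → ℂ → ℂ} {W₀ a₁ a₂ σ ρ : ℝ} {n : ℕ}
    {X : Fin n → ℂ → ℂ} {Φ Δ : Fin n → ℂ × ℂ → ℂ}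
    (o : Obs E Y W₀ (T W₀) a₁ a₂ σ ρ n X Φ Δ) (nl : NL W₀ X)
    (acc : ∃ᶠ u in 𝓝[≠] W₀, u ∈ TT) (hT : ContinuousWithinAt T TT W₀)
    (hv : ∀ u ∈ TT, NE E.g u ∧ Lv E u (T u) (Z u)) {P : ℝ → Prop} (hP : ∀ᶠ u in 𝓝 W₀, P u) :
    ∃ u ∈ TT, P u ∧ (∀ x ∈ Rc E.α E.β E.b₀ (T u), ((u : ℂ), x) ∈ E.Om ∧ Y (u, x) = Z u x) ∧
      ∃ (σ' ρ' : ℝ) (n' : ℕ) (X' : Fin n' → ℂ → ℂ) (Φ' Δ' : Fin n' → ℂ × ℂ → ℂ),
        Obs E Y u (T u) (a₁ - ρ / 4) (a₂ + ρ / 4) σ' ρ' n' X' Φ' Δ' ∧ Lev u σ' X' ∧ Slo u X' := by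
  have r0 := o.ρ0
  have e1 : ∀ᶠ u in 𝓝 W₀, u ∈ TT → |T u - T W₀| < ρ / 8 :=
    eventually_nhdsWithin_iff.1 (Metric.tendsto_nhds.1 hT (ρ / 8) (by positivity))
  obtain ⟨u, m, k1, k2, k3⟩ := (acc.and_eventually ((sel o hY.ok nl).and
    (mem_nhdsWithin_of_mem_nhds (e1.and hP)))).exists
  have hf := cHALF E Y u (T u) (Z u) hY (hv u m).1 (hv u m).2
  obtain ⟨l1, l2, -⟩ := o.lim
  obtain ⟨σ', ρ', n', ι, a, b, c⟩ := k1 (T u) (k2 m) fun x hx =>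
    (hf x ⟨l1.trans_lt hx.1, hx.2.1.trans_le l2, hx.2.2⟩).1
  exact ⟨u, m, k3, hf, σ', ρ', n', _, _, _, a, b, c⟩

/-- an uncountable set of reals has, off any countable set, a point of accumulation -/
theorem acc_pt {TT N : Set ℝ} (h : ¬ TT.Countable) (hN : N.Countable) :
    ∃ W₀ ∈ TT \ N, ∃ᶠ u in 𝓝[≠] W₀, u ∈ TT \ N := by
  by_contra k
  push Not at k
  have c : (TT \ N).Countable := by
    refine Set.Countable.mono (fun x hx => ?_)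
      (countable_setOfPred_isolated_right_within (s := TT \ N))
    refine ⟨hx, ?_⟩
    have := (k x hx).filter_mono (nhdsWithin_mono x (fun y (hy : y ∈ Ioi x) => ne_of_gt hy))
    rw [← empty_mem_iff_bot, inter_comm, nhdsWithin_inter', mem_inf_principal]
    exact this.mono fun y a b => a b
  exact h ((c.union hN).mono fun x hx => by by_cases m : x ∈ N <;> simp [hx, m])

end Vale.Agent.P097F.D
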