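import Vale.Agent.P097F.D.Mono

/-!
# P097F.D: selecting a generic step near `W₀`; the list of obstacles at that step
-/

set_option linter.all false

noncomputable section

namespace Vale.Agent.P097F.D

open Set Metric Filter Topology Complex Vale.Agent.P097D

/-- no two obstacles are linked -/
def NL (W₀ : ℂ) {n : ℕ} (X : Fin n → ℂ → ℂ) : Prop :=
  ∀ c c', c ≠ c' → ¬ ∃ κ : ℂ, ∀ᶠ w in 𝓝 W₀, X c' w - X c w = κ * w

/-- the real slopes are pairwise distinct -/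
def Slo (W₀ : ℂ) {n : ℕ} (X : Fin n → ℂ → ℂ) : Prop := ∀ c c', c ≠ c' →
  (deriv (fun w => X c w / w) W₀).re ≠ (deriv (fun w => X c' w / w) W₀).re

variable {E : Dat} {Y : ℂ × ℂ → ℂ} {W₀ x₀ : ℂ} {σ ρ : ℝ}

theorem One.recentre {X : ℂ → ℂ} {Φ Δ : ℂ × ℂ → ℂ} (h : One E Y W₀ x₀ σ ρ X Φ Δ) {u : ℂ}
    (hu : u ∈ ball W₀ σ) {ρ' σ' : ℝ} (hρ : ρ' ≤ ρ / 2) (r0 : 0 ≤ ρ) (s : ball u σ' ⊆ ball W₀ σ)
    (nr : ∀ W ∈ ball u σ', ‖X W - X u‖ < ρ' / 8) : One E Y u (X u) σ' ρ' X Φ Δ := by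
  have n := h.near u hu
  have a1 := abs_lt.1 ((abs_re_le_norm (X u - x₀)).trans_lt n)
  have a2 := abs_lt.1 ((abs_im_le_norm (X u - x₀)).trans_lt n)
  rw [sub_re] at a1
  rw [sub_im] at a2
  refine ⟨h.an.mono s, rfl, nr, fun W hW x hx => h.om W (s hW) x ?_, h.ch.mono s ?_,
    fun W hW x hx => h.loc W (s hW) x ?_⟩
  · obtain ⟨h1, h2, h3, h4⟩ := hx
    exact ⟨by linarith, by linarith, h3, by linarith⟩
  · exact mul_le_mul_of_nonneg_left (Real.sqrt_le_sqrt (by linarith)) (by norm_num)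
  · obtain ⟨h1, h2, h3, h4⟩ := hx
    exact ⟨by linarith, by linarith, by linarith, by linarith⟩

variable {T a₁ a₂ : ℝ} {n : ℕ} {X : Fin n → ℂ → ℂ} {Φ Δ : Fin n → ℂ × ℂ → ℂ}

theorem Obs.pos (h : Obs E Y W₀ T a₁ a₂ σ ρ n X Φ Δ) {u : ℂ} (hu : u ∈ ball W₀ σ) (c : Fin n) :
    |(X c u).re - (X c W₀).re| < ρ / 8 ∧ |(X c u).im - T| < ρ / 8 := by
  have n := (h.one c).near u hu
  have a1 := (abs_re_le_norm (X c u - X c W₀)).trans_lt n
  have a2 := (abs_im_le_norm (X c u - X c W₀)).trans_lt n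
  rw [sub_re] at a1
  rw [sub_im, (h.top c).1] at a2
  exact ⟨a1, a2⟩

/-- obstacles are not below a level under which the box is in the domain -/
theorem Obs.ge (h : Obs E Y W₀ T a₁ a₂ σ ρ n X Φ Δ) (ok : E.Ok) {u : ℂ} (hu : u ∈ ball W₀ σ)
    {T' : ℝ} (hb : ∀ x ∈ Rc (a₁ - ρ) (a₂ + ρ) E.b₀ T', (u, x) ∈ E.Om) (c : Fin n) :
    T' ≤ (X c u).im := by
  by_contra hc
  obtain ⟨a1, a2⟩ := h.pos hu c
  rw [abs_lt] at a1 a2
  obtain ⟨-, t1, t2⟩ := h.top c
  have r0 := h.ρ0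
  have l := h.lim.2.2
  have b := ok.lt
  exact (h.om u hu (X c u) ⟨by linarith, by linarith, by linarith, by linarith⟩).1
    (hb _ ⟨by linarith, by linarith, by linarith, not_le.1 hc⟩) c ⟨rfl, le_rfl⟩

/-- the list at a nearby step -/
theorem Obs.sub' (h : Obs E Y W₀ T a₁ a₂ σ ρ n X Φ Δ) (ok : E.Ok) {u : ℂ} (hu : u ∈ ball W₀ σ)
    {T' : ℝ} (hT : |T' - T| < ρ / 8) (hb : ∀ x ∈ Rc (a₁ - ρ) (a₂ + ρ) E.b₀ T', (u, x) ∈ E.Om) :
    ∃ (σ' ρ' : ℝ) (n' : ℕ) (ι : Fin n' → Fin n), StrictMono ι ∧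
      Obs E Y u T' (a₁ - ρ / 4) (a₂ + ρ / 4) σ' ρ' n' (fun c => X (ι c)) (fun c => Φ (ι c))
        (fun c => Δ (ι c)) := by
  classical
  let S : Finset (Fin n) := Finset.univ.filter fun c => (X c u).im = T'
  let ι := S.orderEmbOfFin rfl
  have ι1 : ∀ c, (X (ι c) u).im = T' := fun c =>
    (Finset.mem_filter.1 (S.orderEmbOfFin_mem rfl c)).2
  have ι2 : ∀ c, (X c u).im = T' → ∃ c', ι c' = c := fun c hc => by
    have : c ∈ Set.range ι := by
      rw [Finset.range_orderEmbOfFin]; exact Finset.mem_filter.2 ⟨Finset.mem_univ _, hc⟩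
    exact this
  have r0 := h.ρ0
  have e1 : ∀ᶠ r : ℝ in 𝓝[>] 0, ∀ c, (X c u).im ≠ T' → T' + 2 * r < (X c u).im := by
    refine eventually_all.2 fun c => ?_
    by_cases hc : (X c u).im = T'
    · exact Eventually.of_forall fun _ h => (h hc).elim
    · have lt := lt_of_le_of_ne (h.ge ok hu hb c) (Ne.symm hc)
      refine mem_nhdsWithin_of_mem_nhds ?_
      have : ∀ᶠ r : ℝ in 𝓝 0, T' + 2 * r < (X c u).im :=
        ContinuousAt.eventually_lt (by fun_prop) continuousAt_const (by simpa using lt)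
      exact this.mono fun _ h _ => h
  obtain ⟨ρ', ⟨k1, k2⟩, k3⟩ := ((e1.and (mem_nhdsWithin_of_mem_nhds
    (Iio_mem_nhds (by positivity : 0 < ρ / 2)))).and self_mem_nhdsWithin).exists
  have k2 : ρ' < ρ / 2 := k2
  have k3 : 0 < ρ' := k3
  have e2 : ∀ᶠ W in 𝓝 u, W ∈ ball W₀ σ ∧ ∀ c, ‖X c W - X c u‖ < ρ' / 8 :=
    (isOpen_ball.eventually_mem hu).and (eventually_all.2 fun c =>
      ((((h.one c).an u hu).continuousAt.sub continuousAt_const).norm.eventually_lt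
        continuousAt_const (by simpa using k3)))
  obtain ⟨σ', s0, hs⟩ := Metric.eventually_nhds_iff_ball.1 e2
  have s : ball u σ' ⊆ ball W₀ σ := fun W hW => (hs W hW).1
  obtain ⟨l1, l2, l3⟩ := h.lim
  rw [abs_lt] at hT
  refine ⟨σ', ρ', _, ι, ι.strictMono, s0, k3, s.trans h.sub,
    ⟨by linarith, by linarith, by linarith⟩, fun c => ⟨ι1 c, ?_⟩, fun c c' hc => ?_,
    fun c => (h.one _).recentre hu k2.le r0.le s fun W hW => (hs W hW).2 _,
    fun W hW x hx => ?_⟩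
  · have a := abs_lt.1 (h.pos hu (ι c)).1
    have := h.top (ι c)
    exact ⟨by linarith, by linarith⟩
  · have a := abs_lt.1 (h.pos hu (ι c)).1
    have b := abs_lt.1 (h.pos hu (ι c')).1
    have := h.sep _ _ (ι.strictMono hc)
    linarith
  · obtain ⟨h1, h2, h3, h4⟩ := hx
    rw [h.om W (s hW) x ⟨by linarith, by linarith, h3, by linarith⟩]
    refine ⟨fun a c => a _, fun a c => ?_⟩
    by_cases hc : (X c u).im = T'
    · obtain ⟨c', rfl⟩ := ι2 c hc
      exact a c'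
    · intro sl
      have := abs_lt.1 ((abs_im_le_norm (X c W - X c u)).trans_lt ((hs W hW).2 c))
      rw [sub_im] at this
      have := k1 c hc
      have := sl.2
      linarith

/-- one pair of obstacles at a generic real step -/
theorem sel_pair {N : ℂ → ℂ} {W₀ : ℝ} (hN : AnalyticAt ℂ N W₀)
    (nc : ¬ ∃ κ : ℂ, ∀ᶠ w in 𝓝 (W₀ : ℂ), N w = κ) : ∀ᶠ u : ℝ in 𝓝[≠] W₀, (N u).im = 0 →
      (∀ᶠ u' : ℝ in 𝓝 u, (N u').im = 0) ∧ (deriv N u).re ≠ 0 := by
  have c0 : ∀ u : ℝ, AnalyticAt ℝ (fun u : ℝ => (u : ℂ)) u := fun u =>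
    Complex.ofRealCLM.analyticAt u
  have aI : AnalyticAt ℝ (fun u : ℝ => (N u).im) W₀ :=
    (Complex.imCLM.analyticAt _).comp (AnalyticAt.comp (g := N) hN.restrictScalars (c0 W₀))
  rcases aI.eventually_eq_zero_or_eventually_ne_zero with h | h
  · rcases hN.deriv.eventually_eq_zero_or_eventually_ne_zero with k | k
    · refine (nc ⟨N W₀, ?_⟩).elim
      obtain ⟨r, r0, hr⟩ := Metric.eventually_nhds_iff_ball.1 (k.and hN.eventually_analyticAt)
      filter_upwards [ball_mem_nhds _ r0] with w hw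
      exact isOpen_ball.is_const_of_deriv_eq_zero (convex_ball _ r).isPreconnected
        (fun x b => (hr x b).2.differentiableAt.differentiableWithinAt)
        (fun x b => (hr x b).1) hw (mem_ball_self r0)
    · have t : Tendsto (fun u : ℝ => (u : ℂ)) (𝓝[≠] W₀) (𝓝[≠] (W₀ : ℂ)) :=
        tendsto_nhdsWithin_iff.2 ⟨(c0 W₀).continuousAt.tendsto.mono_left nhdsWithin_le_nhds,
          eventually_nhdsWithin_of_forall fun u hu e => hu (Complex.ofReal_injective e)⟩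
      filter_upwards [t.eventually k, mem_nhdsWithin_of_mem_nhds h.eventually_nhds,
        mem_nhdsWithin_of_mem_nhds ((c0 W₀).continuousAt.eventually hN.eventually_analyticAt)]
        with u k1 k2 k3 _
      refine ⟨k2, fun re0 => k1 (Complex.ext re0 ?_)⟩
      have d1 : HasDerivAt (fun u : ℝ => (N u).im) (deriv N u).im u :=
        Complex.imCLM.hasFDerivAt.comp_hasDerivAt u k3.differentiableAt.hasDerivAt.comp_ofReal
      exact d1.unique ((hasDerivAt_const u (0 : ℝ)).congr_of_eventuallyEq k2)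
  · exact h.mono fun u a b => (a b).elim

/-- **SELECT.** at all real steps near `W₀` the list is level with distinct slopes -/
theorem sel {W₀ : ℝ} (h : Obs E Y W₀ T a₁ a₂ σ ρ n X Φ Δ) (ok : E.Ok) (nl : NL W₀ X) :
    ∀ᶠ u : ℝ in 𝓝[≠] W₀, ∀ T' : ℝ, |T' - T| < ρ / 8 →
      (∀ x ∈ Rc (a₁ - ρ) (a₂ + ρ) E.b₀ T', ((u : ℂ), x) ∈ E.Om) →
      ∃ (σ' ρ' : ℝ) (n' : ℕ) (ι : Fin n' → Fin n),
        Obs E Y u T' (a₁ - ρ / 4) (a₂ + ρ / 4) σ' ρ' n' (fun c => X (ι c)) (fun c => Φ (ι c))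
          (fun c => Δ (ι c)) ∧ Lev u σ' (fun c => X (ι c)) ∧ Slo u fun c => X (ι c) := by
  have m0 : (W₀ : ℂ) ∈ ball (W₀ : ℂ) σ := mem_ball_self h.σ0
  have e1 : ∀ᶠ u : ℝ in 𝓝[≠] W₀, ∀ c c', c ≠ c' → (X c' u / u - X c u / u).im = 0 →
      (∀ᶠ u' : ℝ in 𝓝 u, (X c' u' / u' - X c u' / u').im = 0) ∧
        (deriv (fun w => X c' w / w - X c w / w) u).re ≠ 0 := by
    refine eventually_all.2 fun c => eventually_all.2 fun c' => ?_
    by_cases hc : c = c'
    · exact Eventually.of_forall fun _ h => (h hc).elim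
    · have w0 := ok.ne _ (h.sub m0)
      refine (sel_pair (N := fun w => X c' w / w - X c w / w)
        ((((h.one c').an _ m0).div analyticAt_id w0).sub
          (((h.one c).an _ m0).div analyticAt_id w0)) ?_).mono fun u a _ => a
      rintro ⟨κ, hκ⟩
      refine nl c c' hc ⟨κ, ?_⟩
      filter_upwards [hκ, isOpen_ne.mem_nhds w0] with w a b
      have b : w ≠ 0 := b
      rw [← a]; field_simp
  have e2 : ∀ᶠ u : ℝ in 𝓝 W₀, (u : ℂ) ∈ ball (W₀ : ℂ) σ :=
    Complex.continuous_ofReal.continuousAt.eventually (isOpen_ball.mem_nhds m0)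
  filter_upwards [e1, mem_nhdsWithin_of_mem_nhds e2] with u k hu T' hT hb
  obtain ⟨σ', ρ', n', ι, mι, o⟩ := h.sub' ok hu hT hb
  have im : ∀ (v : ℝ) (a b : ℂ), (v : ℂ) ≠ 0 → ((a / v - b / v).im = 0 ↔ b.im = a.im) := by
    intro v a b v0
    have v0 : v ≠ 0 := fun e => v0 (by simp [e])
    rw [← sub_div, Complex.div_ofReal_im, div_eq_zero_iff, sub_im, sub_eq_zero]
    exact ⟨fun h => (h.resolve_right v0).symm, fun h => Or.inl h.symm⟩
  have u0 := ok.ne _ (h.sub hu)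
  have k' := fun c c' (hc : c ≠ c') => k (ι c) (ι c') (mι.injective.ne hc)
    ((im u _ _ u0).2 ((o.top c).1.trans (o.top c').1.symm))
  have e3 : ∀ᶠ v : ℝ in 𝓝 u, ∀ c c', (X (ι c) v).im = (X (ι c') v).im := by
    refine eventually_all.2 fun c => eventually_all.2 fun c' => ?_
    by_cases hc : c = c'
    · exact Eventually.of_forall fun _ => by rw [hc]
    · filter_upwards [(k' c c' hc).1,
        Complex.continuous_ofReal.continuousAt.eventually (isOpen_ne.mem_nhds u0)] with v a b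
      exact (im v _ _ b).1 a
  obtain ⟨s, s0, hs⟩ := Metric.eventually_nhds_iff_ball.1 e3
  refine ⟨min s σ', ρ', n', ι, o.shrink (lt_min s0 o.σ0) (min_le_right _ _),
    fun c c' v hv => hs v ?_ c c', fun c c' hc e => (k' c c' hc).2 ?_⟩
  · rw [mem_ball, Complex.dist_eq, ← Complex.ofReal_sub, Complex.norm_real] at hv
    exact hv.trans_le (min_le_left _ _)
  · have d : ∀ c, DifferentiableAt ℂ (fun w => X c w / w) u := fun c =>
      (((h.one c).an _ hu).div analyticAt_id u0).differentiableAt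
    rw [deriv_fun_sub (d _) (d _), sub_re]
    exact sub_eq_zero.2 e.symm

end Vale.Agent.P097F.D
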